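import Vale.Agent.P167.H562.LG.Low

/-!
# P167, general `q`, block Q-LAM, lower bound: one polygon, all the estimates
-/

namespace Vale.Agent.P167.H562.LG

open Finset
open Vale.Agent.P167.E6 (IsPolygon Encloses)
open Vale.Agent.P167.BR
open Vale.Agent.P167.FK (Bq Ex Good RSW cf)
open Vale.Agent.P167.FKA (Loc Ex_mono Ex_congr Ex_const Ex_mul_left Ex_nonneg Ex_sub)
open Vale.Agent.P167.H562.QM (MajA OneC Nr)
open Vale.Agent.P167.H365.NQ (XW)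
open Vale.Agent.P167.H975 (TX TX_loc)
open Vale.Agent.P167.H167.Q (MxA)
open Vale.Agent.P167.H601.LG
open Vale.Agent.P167.H601.S2
open Vale.Agent.P167.H718.Lam (Pg)

/-- The conclusion of `mom_J`. -/
def MJ (θ c0 s : ℝ) (ms E : ℕ) (K : ℤ) (M Y : ℝ) : Prop :=
  ∀ {n N L k : ℕ} {m₀ : ℤ} {q : ZMod N → ℤ × ℤ} {D : Finset (ℤ × ℤ)} {τ : ℕ → ℤ} {η : Cfg}
    {β : ℝ}, Sit n N L m₀ q D k τ η → ∀ P : Finset ℕ, (∀ j ∈ P, j < N ∧ Spe τ k j) →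
    P.card ≤ ms → ∀ r : ℤ, E * K ≤ r → 24 * r < n → 16 * r < L → 4 * r ≤ m₀ →
    Wl θ β q D k τ P c0 r → ∀ J : Cfg → ℝ, (∀ ω, 0 ≤ J ω) →
    (∀ i ∈ P, Off D (fun v => nm (v - q (i : ZMod N)) ≤ 2 * r) J) →
    ∀ N0 : Cfg → ℝ, (∀ ω, 0 ≤ N0 ω) →
    Ex (2 * Real.cos θ) D η (fun ω => J ω * PT θ β q D k τ P (r / E) ω *
      Real.exp (2 * s * N0 ω)) ≤
      M * Ex (2 * Real.cos θ) D η (fun ω => J ω * PT θ β q D k τ P (r / E) ω) →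
    Ex (2 * Real.cos θ) D η (fun ω => J ω * PT θ β q D k τ P r ω * Real.exp (s * N0 ω)) ≤
      Y ^ 4 * Ex (2 * Real.cos θ) D η (fun ω => J ω * PT θ β q D k τ P r ω) ∧
    Ex (2 * Real.cos θ) D η (fun ω => J ω * PT θ β q D k τ P r ω) ≤
      Y ^ 4 * Ex (2 * Real.cos θ) D η (fun ω => J ω * PT θ β q D k τ P (r / E) ω)

/-- The conclusion of `exists_far`. -/
def FarN (Q : ℝ) (ms : ℕ) (e1 κ R s C ρ0 : ℝ) : Prop :=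
  ∀ {n N L k : ℕ} {m₀ : ℤ} {q : ZMod N → ℤ × ℤ} {D : Finset (ℤ × ℤ)} {τ : ℕ → ℤ} {η : Cfg},
    Sit n N L m₀ q D k τ η → ρ0 ≤ n → κ * n ≤ m₀ →
    (∃ x₀ : ℤ × ℤ, ∀ v ∈ D, (nm (v - x₀) : ℝ) ≤ R * n) → ∀ S : Finset ℕ, S.card ≤ ms →
    ∃ N0 : Cfg → ℕ, (∀ ω, MajA D (κ * n) ω (N0 ω)) ∧ ∀ T : Cfg → ℝ, (∀ ω, 0 ≤ T ω) →
      (∀ ω ω' : Cfg, (∀ v : ℤ × ℤ, (∃ j ∈ S, (nm (v - q ((j : ℕ) : ZMod N)) : ℝ) ≤
        e1 * κ / (1 + |s|) * n) → ω v = ω' v) → T ω = T ω') →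
      Ex Q D η (fun ω => T ω * Real.exp (s * (N0 ω : ℝ))) ≤ C * Ex Q D η T

/-- The conclusion of `exists_nearn`. -/
def NearN (Q e1 Rr s C ρ0 : ℝ) : Prop :=
  ∀ {n N L k : ℕ} {m₀ : ℤ} {q : ZMod N → ℤ × ℤ} {D : Finset (ℤ × ℤ)} {τ : ℕ → ℤ} {η : Cfg},
    Sit n N L m₀ q D k τ η → ∀ (P : Finset ℕ) (r3 R1 : ℤ), ρ0 ≤ r3 → 1 ≤ r3 → r3 ≤ R1 →
    (R1 : ℝ) ≤ Rr * r3 → 2 * R1 + 1 ≤ m₀ →
    (∀ i ∈ P, ∀ j ∈ P, i ≠ j → 4 * R1 < nm (q ((i : ℕ) : ZMod N) - q ((j : ℕ) : ZMod N))) →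
    ∃ Nf : ℕ → Cfg → ℕ,
      (∀ (j : ℕ) (ω : Cfg), MajA (Bq (q (j : ZMod N)) R1) ((r3 : ℝ) / 16) ω (Nf j ω)) ∧
      ∀ T : Cfg → ℝ, (∀ ω, 0 ≤ T ω) →
      (∀ a ∈ P, Off D (Rg (q ((a : ℕ) : ZMod N)) (e1 * (1 / 16) / (1 + |s|) * r3) (2 * R1)) T) →
      Ex Q D η (fun ω => T ω * Real.exp (s * ((∑ j ∈ P, Nf j ω : ℕ) : ℝ))) ≤
        C ^ P.card * Ex Q D η T

theorem rr_low {R1 : ℤ} {E m : ℕ} (hE : 1 ≤ E) (h : 1 ≤ rr R1 E m) :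
    (R1 : ℝ) ≤ 2 * (E : ℝ) ^ m * rr R1 E m := by
  have h0 : (0 : ℤ) < (E : ℤ) ^ m := by positivity
  have h1 := Int.lt_ediv_add_one_mul_self R1 h0
  have h2 : (E : ℤ) ^ m ≤ (E : ℤ) ^ m * rr R1 E m := le_mul_of_one_le_right h0.le h
  have h3 : R1 ≤ 2 * (E : ℤ) ^ m * rr R1 E m := by
    unfold rr at *
    nlinarith
  exact_mod_cast h3

theorem dn_of_mj {θ c0 s : ℝ} {ms E : ℕ} {K : ℤ} {Y : ℝ} (h : MJ θ c0 s ms E K 1 Y) :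
    Dn θ c0 ms E K (Y ^ 4) := by
  intro n N L k m₀ q D τ η β hS P hP hPc r hr h1 h2 h3 hw
  have key := (h hS P hP hPc r hr h1 h2 h3 hw (fun _ => 1) (fun _ => zero_le_one)
    (fun i hi ω ω' hh => rfl) (fun _ => 0) (fun _ => le_rfl) (by
      simp only [mul_zero, Real.exp_zero, mul_one, one_mul]
      exact le_rfl)).2
  simpa only [one_mul] using key

namespace Hy

variable {θ c0 s : ℝ} {ms n L E m : ℕ} {X : Pg} {m₀ rZ R1 r r3 K : ℤ} {P Z : Finset ℕ} {ω : Cfg}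

/-- **The lower bound for one polygon.** -/
theorem core (h : Hy θ ms c0 n X L m₀ P Z rZ R1) (h0 : 0 < θ) (h1 : θ ≤ Real.pi / 3)
    (hQ : 1 ≤ 2 * Real.cos θ) (hc0 : 0 < c0) (hc1 : c0 ≤ 1) (hs : 0 < s)
    (hs1 : Real.exp (-(s / 4)) ≤ c0) (hE : 1 ≤ E) (hK : 1 ≤ K) {Y1 Y Cp Cf e1p e1f κ R' ρp ρf : ℝ}
    (hY1 : 1 ≤ Y1) (hd : Dn θ c0 ms E K Y1) (hCp : 0 < Cp) (hCf : 0 < Cf)
    (hmj : MJ θ c0 s ms E K (max 1 Cp ^ ms + Cf) Y)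
    (hnear : NearN (2 * Real.cos θ) e1p (2 * (E : ℝ) ^ m) (4 * s) Cp ρp)
    (hfar : FarN (2 * Real.cos θ) ms e1f κ R' (4 * s) Cf ρf) (he1p : 0 < e1p)
    (hEe : 1 ≤ e1p * (1 / 16) / (1 + |4 * s|) * E) (hr3 : rr R1 E m ≤ rZ)
    (hKr : E * K ≤ rr R1 E m) (hρp : ρp ≤ rr R1 E m) (hρf : ρf ≤ n) (hκm : κ * n ≤ m₀)
    (hdia : ∃ x₀ : ℤ × ℤ, ∀ v ∈ X.D, (nm (v - x₀) : ℝ) ≤ R' * n)
    (hκR : κ * n ≤ (R1 : ℝ) / 16) (hrZ : (rZ : ℝ) ≤ e1f * κ / (1 + |4 * s|) * n)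
    (hX0 : ∀ ω, 0 ≤ XW X.D (X.w θ) ω)
    {H : Cfg → ℝ} (hH : ∀ ω, 0 ≤ H ω ∧ H ω ≤ 1)
    (hHc : ∀ ω, H ω ≠ 0 → X.TZ θ Z rZ ω ≠ 0 → ∀ A ∈ pcs ω X.D, c0 ≤ X.w θ A)
    {c2 M0 : ℝ} (hc2 : 0 ≤ c2)
    (hHE : c2 * X.E θ (fun ω => X.TZ θ Z rZ ω * X.TZ θ P (rr R1 E m) ω) ≤
      X.E θ (fun ω => X.TZ θ Z rZ ω * X.TZ θ P (rr R1 E m) ω * H ω))
    (hM : Y ^ 4 * Real.exp (-(s * M0)) ≤ c2 / 2) :
    Real.exp (-(s / 4 * M0)) * (c2 / 2) * ((1 / 2 : ℝ) ^ ms * ((1 / Y1 ^ m) ^ ms *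
      ∏ j ∈ P ∪ Z, X.eT θ j R1)) ≤ X.eX θ := by
  obtain ⟨r3, hr3d⟩ : ∃ r3, r3 = rr R1 E m := ⟨_, rfl⟩
  have hR0 : 0 ≤ R1 := zero_le_one.trans h.r1
  have hQ0 : 0 < 2 * Real.cos θ := by linarith
  have hE0 : (0 : ℤ) < E := by exact_mod_cast hE
  have hKE : K ≤ E * K := le_mul_of_one_le_left (by omega) (by omega)
  have r31 : 1 ≤ r3 := by rw [hr3d]; omega
  have r3E : 1 ≤ r3 / E := by
    rw [Int.le_ediv_iff_mul_le hE0, one_mul, hr3d]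
    exact le_trans (le_mul_of_one_le_right hE0.le hK) hKr
  have hRr := rr_low (R1 := R1) (E := E) (m := m) hE (by rw [← hr3d]; exact r31)
  rw [← hr3d] at hr3 hKr hρp hHE hRr
  have a1 := h.hn
  have a2 := h.hL
  have a3 := h.hm
  have a4 := h.rR
  have a5 := h.r1
  have hPspe : ∀ j ∈ P, j < X.N ∧ Spe X.τ X.k j := fun j hj => h.spe j (mem_union_left _ hj)
  have hPc : P.card ≤ ms := (card_le_card subset_union_left).trans h.card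
  have hPf : ∀ i ∈ P, ∀ j ∈ P, i ≠ j →
      4 * R1 < nm (X.q ((i : ℕ) : ZMod X.N) - X.q ((j : ℕ) : ZMod X.N)) := fun i hi j hj hij =>
    h.far (mem_union_left _ hi) (mem_union_left _ hj) hij
  have hdiv : r3 / E ≤ r3 := Int.ediv_le_self _ (by omega)
  have hdivR : ((r3 / E : ℤ) : ℝ) ≤ e1p * (1 / 16) / (1 + |4 * s|) * r3 := by
    have b1 : ((r3 / E : ℤ) : ℝ) * E ≤ r3 := by
      exact_mod_cast Int.ediv_mul_le r3 hE0.ne'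
    have b2 : (0 : ℝ) ≤ ((r3 / E : ℤ) : ℝ) := by
      have : 0 ≤ r3 / (E : ℤ) := by omega
      exact_mod_cast this
    have b3 : 0 ≤ e1p * (1 / 16) / (1 + |4 * s|) := by positivity
    calc ((r3 / E : ℤ) : ℝ) = 1 * ((r3 / E : ℤ) : ℝ) := (one_mul _).symm
      _ ≤ (e1p * (1 / 16) / (1 + |4 * s|) * E) * ((r3 / E : ℤ) : ℝ) :=
        mul_le_mul_of_nonneg_right hEe b2
      _ = e1p * (1 / 16) / (1 + |4 * s|) * (((r3 / E : ℤ) : ℝ) * E) := by ring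
      _ ≤ _ := mul_le_mul_of_nonneg_left b1 b3
  -- the numbers
  obtain ⟨Nf, n1, n2⟩ := hnear h.sit P r3 R1 hρp r31 (hr3.trans a4) hRr (by omega) hPf
  obtain ⟨N0, f1, f2⟩ := hfar h.sit hρf hκm hdia (P ∪ Z) h.card
  obtain ⟨T, hT⟩ : ∃ T : Cfg → ℝ, T = fun ω => X.TZ θ Z rZ ω * X.TZ θ P (r3 / E) ω := ⟨_, rfl⟩
  have hJ0 := h.Z0
  have hT0 : ∀ ω, 0 ≤ T ω := by
    intro ω
    rw [hT]
    exact mul_nonneg (hJ0 ω) (h.P0 hc0.le ((hdiv.trans hr3).trans a4) ω)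
  have hT1 : Ex (2 * Real.cos θ) X.D X.η (fun ω => T ω * Real.exp (4 * s *
      (((∑ j ∈ P, Nf j ω : ℕ)) : ℝ))) ≤ max 1 Cp ^ ms * Ex (2 * Real.cos θ) X.D X.η T := by
    refine (n2 T hT0 fun a ha => ?_).trans ?_
    · rw [hT]
      exact JP_off (θ := θ) (β := (θ - Real.pi) / 2) (k := X.k) (τ := X.τ) (r := R1)
        (h.off le_rfl) hPf ha r3E
        ((hdiv.trans hr3).trans a4) hdivR le_rfl
    · refine mul_le_mul_of_nonneg_right ?_ (Ex_nonneg hQ0 fun _ _ => hT0 _)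
      exact (pow_le_pow_left₀ hCp.le (le_max_right _ _) _).trans
        (pow_le_pow_right₀ (le_max_left _ _) hPc)
  have hT2 : Ex (2 * Real.cos θ) X.D X.η (fun ω => T ω * Real.exp (4 * s * (N0 ω : ℝ))) ≤
      Cf * Ex (2 * Real.cos θ) X.D X.η T := by
    refine f2 T hT0 fun ω ω' hh => ?_
    rw [hT]
    show X.TZ θ Z rZ ω * X.TZ θ P (r3 / E) ω = X.TZ θ Z rZ ω' * X.TZ θ P (r3 / E) ω'
    congr 1
    · refine TZ_loc X θ Z rZ fun j hj v hv _ => hh v ⟨j, mem_union_right _ hj, ?_⟩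
      have b1 := nm_of_Bq hv
      have b2 : (nm (v - X.q (j : ZMod X.N)) : ℝ) ≤ rZ := by exact_mod_cast b1
      exact b2.trans hrZ
    · refine TZ_loc X θ P (r3 / E) fun j hj v hv _ => hh v ⟨j, mem_union_left _ hj, ?_⟩
      have b1 := nm_of_Bq hv
      have b2 : (nm (v - X.q (j : ZMod X.N)) : ℝ) ≤ rZ := by
        exact_mod_cast b1.trans (hdiv.trans hr3)
      exact b2.trans hrZ
  have hT3 := two_mom (D := X.D) (η := X.η) hQ0 hT0 (s := s) (by positivity) hCf.le hT1 hT2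
  obtain ⟨Nn, hNn⟩ : ∃ Nn : Cfg → ℝ, Nn = fun ω => ((((∑ j ∈ P, Nf j ω) + N0 ω : ℕ)) : ℝ) :=
    ⟨_, rfl⟩
  have hmom := (hmj h.sit P hPspe hPc r3 hKr (by omega) (by omega) (by omega)
    (β := (θ - Real.pi) / 2) (h.wl (hr3.trans a4)) (X.TZ θ Z rZ) hJ0 (h.off (hr3.trans a4)) Nn
    (fun ω => by rw [hNn]; positivity) (by
      have e1 : (fun ω => T ω * Real.exp (2 * s * ((((∑ j ∈ P, Nf j ω : ℕ)) : ℝ) +
          ((N0 ω : ℕ) : ℝ)))) = fun ω => X.TZ θ Z rZ ω *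
          PT θ ((θ - Real.pi) / 2) X.q X.D X.k X.τ P (r3 / E) ω * Real.exp (2 * s * Nn ω) := by
        funext ω
        rw [hT, hNn]
        show X.TZ θ Z rZ ω * X.TZ θ P (r3 / E) ω * _ = X.TZ θ Z rZ ω * X.TZ θ P (r3 / E) ω * _
        push_cast
        rfl
      rw [e1, hT] at hT3
      exact hT3)).1
  -- the lower bound
  have hlow := h.low h0 h1 hQ hc0 hc1 hs hs1 (r3 := r3) hr3 hκR (Nf := Nf) (N0 := N0)
    (fun j _ ω => n1 j ω) f1 hX0 hH hHc (c2 := c2) (Y := Y ^ 4) (M0 := M0) hHE (by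
      rw [hNn] at hmom
      exact hmom) hM
  refine le_trans ?_ hlow
  refine mul_le_mul_of_nonneg_left ?_ (by positivity)
  have hprod := h.prodE hQ hc0.le hr3
  have hdown := h.downP hQ hc0.le hY1 hd hE (m := m) (by rw [← hr3d]; omega)
  rw [← hr3d] at hdown
  exact (mul_le_mul_of_nonneg_left hdown (by positivity)).trans hprod

end Hy

end Vale.Agent.P167.H562.LG
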