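import Vale.Agent.P167.H562.LG.Mom
import Vale.Agent.P167.H718.Lam.Cut

/-!
# P167, general `q`, block Q-LAM, lower bound: deterministic part

`XW_low`: the product of all the weights is at least the product of the weights of the pieces in small
boxes around the points of `P` times `c0` to the number of the large pieces.
-/

namespace Vale.Agent.P167.H562.LG

open Finset
open Vale.Agent.P167.E6 (IsPolygon Encloses)
open Vale.Agent.P167.BR
open Vale.Agent.P167.FK (Bq Ex Good RSW cf)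
open Vale.Agent.P167.FKA (Loc Ex_mono Ex_congr Ex_const Ex_mul_left Ex_nonneg)
open Vale.Agent.P167.H562.QM (MajA OneC)
open Vale.Agent.P167.H365.NQ (XW)
open Vale.Agent.P167.H601.LG
open Vale.Agent.P167.H601.S2

/-- The number of separated points. -/
theorem card_sep {S : Finset ℕ} {N L : ℕ} (hL : 1 ≤ L) (hS : ∀ i ∈ S, i < N)
    (h : ∀ i ∈ S, ∀ j ∈ S, i < j → i + L ≤ j) : S.card ≤ N / L + 1 := by
  have h1 : (S.image fun i => i / L).card = S.card := by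
    refine card_image_of_injOn fun i hi j hj hij => ?_
    have key : ∀ a ∈ S, ∀ b ∈ S, a < b → a / L ≠ b / L := by
      intro a ha b hb hab
      have h2 := h a ha b hb hab
      have h3 : (a + L) / L ≤ b / L := Nat.div_le_div_right h2
      rw [Nat.add_div_right a (by omega)] at h3
      omega
    by_contra hne
    rcases Nat.lt_or_gt_of_ne hne with h2 | h2
    · exact key i hi j hj h2 hij
    · exact key j hj i hi h2 hij.symm
  rw [← h1]
  refine (card_le_card (t := range (N / L + 1)) ?_).trans (by rw [card_range])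
  intro x hx
  rw [mem_image] at hx
  obtain ⟨i, hi, rfl⟩ := hx
  rw [mem_range]
  have := Nat.div_le_div_right (c := L) (hS i hi).le
  omega

theorem exists_enum {m : ℕ} {S : Finset ℕ} (hS : S.card ≤ m) (f : ℕ → ℤ × ℤ) :
    ∃ x : Fin m → ℤ × ℤ, ∀ j ∈ S, ∃ i, x i = f j := by
  classical
  refine ⟨fun i => if h : (i : ℕ) < S.card then f (S.equivFin.symm ⟨i, h⟩ : ℕ) else 0,
    fun j hj => ⟨Fin.castLE hS (S.equivFin ⟨j, hj⟩), ?_⟩⟩
  simp

variable {n N k : ℕ} {q : ZMod N → ℤ × ℤ} {D : Finset (ℤ × ℤ)} {τ : ℕ → ℤ}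
  {ω : Cfg} {θ β c0 : ℝ} {P Z : Finset ℕ} {A : Finset Ed}

/-- A piece visits the domain. -/
theorem head_in (hA : A ∈ pcs ω D) : ∃ e ∈ A, hdv e ∈ D := by
  obtain ⟨e, he⟩ := pcs_nonempty hA
  rcases mem_eds.1 (subset_eds hA he) with h | h
  · exact ⟨e, he, h⟩
  · obtain ⟨f, hf⟩ := (s_nx ω).2 e
    have h1 : hdv f = tlv e := by rw [← hf, tlv_nx]
    have h2 : hdv f ∈ D := by rw [h1]; exact h
    exact ⟨f, (nx_mem_iff hA h2).2 (by rw [hf]; exact he), h2⟩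

/-- A product of numbers which are at least `c0`. -/
theorem prod_low {α : Type*} {S : Finset α} {w : α → ℝ} (hc0 : 0 < c0) (hc1 : c0 ≤ 1)
    (hw : ∀ A ∈ S, c0 ≤ w A) [DecidablePred fun A => w A ≠ 1] {M : ℕ}
    (hM : (S.filter fun A => w A ≠ 1).card ≤ M) : c0 ^ M ≤ ∏ A ∈ S, w A := by
  classical
  rw [← prod_filter_mul_prod_filter_not S (fun A => w A ≠ 1)]
  have h3 : ∏ A ∈ S.filter (fun A => ¬ w A ≠ 1), w A = 1 := by
    refine prod_eq_one fun A hA => ?_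
    rw [mem_filter] at hA
    exact not_not.1 hA.2
  rw [h3, mul_one]
  calc c0 ^ M ≤ c0 ^ (S.filter (fun A => w A ≠ 1)).card :=
        pow_le_pow_of_le_one hc0.le hc1 hM
    _ = ∏ _A ∈ S.filter (fun A => w A ≠ 1), c0 := (prod_const _).symm
    _ ≤ _ := prod_le_prod (fun A _ => hc0.le) fun A hA => hw A (mem_filter.1 hA).1

/-- **The deterministic lower bound.** -/
theorem XW_low (h0 : 0 < θ) (h1 : θ ≤ Real.pi / 3) (hG : GeoN n N q τ) (hq : IsPolygon q)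
    (hD : Encloses q D) (hPZ : ∀ j, j < N → Spe τ k j → j ∈ P ∨ j ∈ Z) (hdj : Disjoint P Z)
    {r3 R1 : ℤ} (hfar : ∀ i ∈ P ∪ Z, ∀ j ∈ P ∪ Z, i ≠ j →
      2 * R1 < nm (q (i : ZMod N) - q (j : ZMod N)))
    (h31 : r3 ≤ R1) (hR1 : R1 ≤ n) (hc0 : 0 < c0) (hc1 : c0 ≤ 1)
    (hall : ∀ A ∈ pcs ω D, c0 ≤ wJ θ β q D k τ A)
    (hZ1 : ∀ j ∈ Z, H975.TX (wJ θ β q D k τ) D (q (j : ZMod N)) R1 ω = 1)
    {Nf : ℕ → ℕ} {N0 : ℕ} {κn : ℝ} (hκ : κn ≤ (R1 : ℝ) / 16)
    (hMf : ∀ j ∈ P, MajA (Bq (q (j : ZMod N)) R1) ((r3 : ℝ) / 16) ω (Nf j))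
    (hM0 : MajA D κn ω N0) :
    c0 ^ ((∑ j ∈ P, Nf j) + N0) * PT θ β q D k τ P r3 ω ≤ XW D (wJ θ β q D k τ) ω := by
  classical
  obtain ⟨w, hw⟩ : ∃ w, w = wJ θ β q D k τ := ⟨_, rfl⟩
  obtain ⟨ra, hra⟩ : ∃ ra : ℕ → ℤ, ra = fun j => if j ∈ P then r3 else R1 := ⟨_, rfl⟩
  have hraR : ∀ j, ra j ≤ R1 := fun j => by
    rw [hra]
    show (if j ∈ P then r3 else R1) ≤ R1
    split_ifs
    · exact h31
    · exact le_rfl
  have hraP : ∀ j ∈ P, ra j = r3 := fun j hj => by rw [hra]; exact if_pos hj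
  have hraZ : ∀ j ∈ Z, ra j = R1 := fun j hj => by
    rw [hra]
    exact if_neg fun hc => disjoint_left.1 hdj hc hj
  obtain ⟨B, hB⟩ : ∃ B : ℕ → Finset (Finset Ed), B = fun j : ℕ =>
    (pcs ω D).filter fun A => ∀ e ∈ A, hdv e ∈ Bq (q (j : ZMod N)) (ra j) := ⟨_, rfl⟩
  have hBd : ∀ i ∈ P ∪ Z, ∀ j ∈ P ∪ Z, i ≠ j → Disjoint (B i) (B j) := by
    intro i hi j hj hij
    rw [disjoint_left]
    intro A hA hA'
    rw [hB] at hA hA'
    simp only [mem_filter] at hA hA'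
    obtain ⟨e, he⟩ := pcs_nonempty hA.1
    have a1 := nm_of_Bq (hA.2 e he)
    have a2 := nm_of_Bq (hA'.2 e he)
    have a3 := hfar i hi j hj hij
    have a4 := nm_tri' (q (i : ZMod N)) (hdv e) (q (j : ZMod N))
    have a5 := nm_comm (q (i : ZMod N)) (hdv e)
    have a6 := hraR i
    have a7 := hraR j
    omega
  have hPT : PT θ β q D k τ P r3 ω = ∏ A ∈ (P ∪ Z).biUnion B, w A := by
    rw [prod_biUnion (fun i hi j hj hij => hBd i hi j hj hij), prod_union hdj]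
    have e1 : ∏ x ∈ Z, ∏ A ∈ B x, w A = 1 := by
      refine prod_eq_one fun j hj => ?_
      rw [← hZ1 j hj, hB]
      show ∏ A ∈ (pcs ω D).filter (fun A => ∀ e ∈ A, hdv e ∈ Bq (q (j : ZMod N)) (ra j)), w A = _
      rw [hraZ j hj]
      unfold H975.TX
      rw [hw]
    rw [e1, mul_one]
    unfold PT
    refine prod_congr rfl fun j hj => ?_
    rw [hB]
    show _ = ∏ A ∈ (pcs ω D).filter (fun A => ∀ e ∈ A, hdv e ∈ Bq (q (j : ZMod N)) (ra j)), w A
    rw [hraP j hj]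
    unfold H975.TX
    rw [hw]
  have hsub : (P ∪ Z).biUnion B ⊆ pcs ω D := by
    intro A hA
    rw [mem_biUnion] at hA
    obtain ⟨j, -, hj⟩ := hA
    rw [hB] at hj
    exact (mem_filter.1 hj).1
  have hXW : XW D w ω = (∏ A ∈ pcs ω D \ (P ∪ Z).biUnion B, w A) *
      ∏ A ∈ (P ∪ Z).biUnion B, w A := by
    unfold XW
    exact (prod_sdiff hsub).symm
  have hPT0 : 0 ≤ ∏ A ∈ (P ∪ Z).biUnion B, w A := prod_nonneg fun A hA => by
    rw [hw]
    exact hc0.le.trans (hall A (hsub hA))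
  rw [← hw, hXW, hPT]
  refine mul_le_mul_of_nonneg_right ?_ hPT0
  refine prod_low hc0 hc1 (fun A hA => by rw [hw]; exact hall A (mem_sdiff.1 hA).1) ?_
  -- the number of the pieces
  obtain ⟨S', hS'⟩ : ∃ S', S' = (pcs ω D \ (P ∪ Z).biUnion B).filter fun A => w A ≠ 1 := ⟨_, rfl⟩
  rw [← hS']
  obtain ⟨V, hV⟩ : ∃ V : ℕ → Finset (Finset Ed), V = fun j : ℕ =>
    S'.filter fun A => ∃ e ∈ A, hdv e ∈ Bq (q (j : ZMod N)) R1 := ⟨_, rfl⟩
  obtain ⟨U, hU⟩ : ∃ U : Finset (Finset Ed), U =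
    S'.filter fun A => ¬ ∃ j ∈ P, ∃ e ∈ A, hdv e ∈ Bq (q (j : ZMod N)) R1 := ⟨_, rfl⟩
  have hmem : ∀ A ∈ S', A ∈ pcs ω D ∧
      (∀ j ∈ P ∪ Z, ¬ ∀ e ∈ A, hdv e ∈ Bq (q (j : ZMod N)) (ra j)) ∧ w A ≠ 1 := by
    intro A hA
    rw [hS', mem_filter, mem_sdiff] at hA
    refine ⟨hA.1.1, fun j hj hcon => hA.1.2 ?_, hA.2⟩
    rw [mem_biUnion]
    refine ⟨j, hj, ?_⟩
    rw [hB]
    exact mem_filter.2 ⟨hA.1.1, hcon⟩
  have hdis : ∀ A ∈ S', ∀ A' ∈ S', A ≠ A' → Disjoint A A' := by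
    intro A hA A' hA' hne
    rw [disjoint_left]
    intro e he he'
    exact hne (eq_of_mem_pcs (hmem A hA).1 (hmem A' hA').1 he he')
  have hcov : S' ⊆ P.biUnion V ∪ U := by
    intro A hA
    rw [mem_union]
    by_cases h : ∃ j ∈ P, ∃ e ∈ A, hdv e ∈ Bq (q (j : ZMod N)) R1
    · obtain ⟨j, hj, h⟩ := h
      left
      rw [mem_biUnion]
      refine ⟨j, hj, ?_⟩
      rw [hV]
      exact mem_filter.2 ⟨hA, h⟩
    · right
      rw [hU]
      exact mem_filter.2 ⟨hA, h⟩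
  have hVc : ∀ j ∈ P, (V j).card ≤ Nf j := by
    intro j hj
    refine hMf j hj (V j) (fun A hA => ?_) (fun A hA A' hA' hne => ?_) fun A hA => ?_
    · rw [hV] at hA
      exact H167.isSeg (hmem A (mem_filter.1 hA).1).1
    · rw [hV] at hA hA'
      exact hdis A (mem_filter.1 hA).1 A' (mem_filter.1 hA').1 hne
    · rw [hV] at hA
      obtain ⟨hA1, hA2⟩ := mem_filter.1 hA
      obtain ⟨m1, m2, m3⟩ := hmem A hA1
      refine ⟨hA2, ?_⟩
      rw [hw] at m3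
      refine large_of_ne_one h0 h1 hG hq hD m1 m3 (r := r3) (h31.trans hR1) fun i hi hsi hin => ?_
      rcases hPZ i hi hsi with h | h
      · exact m2 i (mem_union_left _ h) (by rw [hraP i h]; exact hin)
      · exact m2 i (mem_union_right _ h) (by
          rw [hraZ i h]
          exact fun e he => Bq_sub h31 (hin e he))
  have hUc : U.card ≤ N0 := by
    refine hM0 U (fun A hA => ?_) (fun A hA A' hA' hne => ?_) fun A hA => ?_
    · rw [hU] at hA
      exact H167.isSeg (hmem A (mem_filter.1 hA).1).1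
    · rw [hU] at hA hA'
      exact hdis A (mem_filter.1 hA).1 A' (mem_filter.1 hA').1 hne
    · rw [hU] at hA
      obtain ⟨hA1, hA2⟩ := mem_filter.1 hA
      obtain ⟨m1, m2, m3⟩ := hmem A hA1
      refine ⟨head_in m1, ?_⟩
      rw [hw] at m3
      obtain ⟨e, he, e', he', hee⟩ := large_of_ne_one h0 h1 hG hq hD m1 m3 (r := R1) hR1
        fun i hi hsi hin => by
          rcases hPZ i hi hsi with h | h
          · obtain ⟨e, he⟩ := pcs_nonempty m1
            exact hA2 ⟨i, h, e, he, hin e he⟩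
          · exact m2 i (mem_union_right _ h) (by rw [hraZ i h]; exact hin)
      exact ⟨e, he, e', he', hκ.trans hee⟩
  calc S'.card ≤ (P.biUnion V ∪ U).card := card_le_card hcov
    _ ≤ (P.biUnion V).card + U.card := card_union_le _ _
    _ ≤ (∑ j ∈ P, (V j).card) + U.card := Nat.add_le_add_right card_biUnion_le _
    _ ≤ _ := Nat.add_le_add (sum_le_sum hVc) hUc

end Vale.Agent.P167.H562.LG
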