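import Vale.Agent.P167.H562.LG.Nums

/-!
# P167, general `q`, block Q-LAM, lower bound: the situation
-/

namespace Vale.Agent.P167.H562.LG

open Finset
open Vale.Agent.P167.E6 (IsPolygon Encloses)
open Vale.Agent.P167.BR
open Vale.Agent.P167.FK (Bq Ex Good RSW cf)
open Vale.Agent.P167.FKA (Loc Ex_mono Ex_congr Ex_const Ex_mul_left Ex_nonneg Ex_sub)
open Vale.Agent.P167.H562.QM (MajA OneC Nr)
open Vale.Agent.P167.H975 (TX TX_loc)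
open Vale.Agent.P167.H167.Q (MxA)
open Vale.Agent.P167.H601.LG
open Vale.Agent.P167.H601.S2
open Vale.Agent.P167.H718.Lam (Pg)

/-- The situation. -/
structure Hy (θ : ℝ) (ms : ℕ) (c0 : ℝ) (n : ℕ) (X : Pg) (L : ℕ) (m₀ : ℤ) (P Z : Finset ℕ)
    (rZ R1 : ℤ) : Prop where
  sit : Sit n X.N L m₀ X.q X.D X.k X.τ X.η
  mx : ∀ j ∈ P ∪ Z, MxA (2 * Real.cos θ) X.D X.η (X.q (j : ZMod X.N)) rZ R1 (1 / 2)
  all : ∀ j, j < X.N → Spe X.τ X.k j → j ∈ P ∨ j ∈ Z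
  spe : ∀ j ∈ P ∪ Z, j < X.N ∧ Spe X.τ X.k j
  dj : Disjoint P Z
  card : (P ∪ Z).card ≤ ms
  hn : 24 * R1 < n
  hL : 16 * R1 < L
  hm : 4 * R1 ≤ m₀
  rR : rZ ≤ R1
  r1 : 1 ≤ R1
  z1 : 1 ≤ rZ
  wP : ∀ j ∈ P, ∀ ω, ∀ A ∈ pcs ω X.D, (∀ e ∈ A, hdv e ∈ Bq (X.q (j : ZMod X.N)) R1) →
    c0 ≤ X.w θ A
  wZ : ∀ j ∈ Z, ∀ ω, ∀ r : ℤ, 1 ≤ r → r ≤ R1 → X.T θ j r ω = 0 ∨ X.T θ j r ω = 1

namespace Hy

variable {θ c0 : ℝ} {ms n L : ℕ} {X : Pg} {m₀ rZ R1 r r3 : ℤ} {P Z : Finset ℕ} {ω : Cfg}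

theorem far (h : Hy θ ms c0 n X L m₀ P Z rZ R1) {i j : ℕ} (hi : i ∈ P ∪ Z) (hj : j ∈ P ∪ Z)
    (hij : i ≠ j) : 4 * R1 < nm (X.q (i : ZMod X.N) - X.q (j : ZMod X.N)) := by
  have h1 := h.hn
  have h2 := h.hL
  have h3 := h.r1
  exact spe_far h.sit.geo h.sit.sep (h.spe i hi).1 (h.spe j hj).1 hij (h.spe i hi).2
    (h.spe j hj).2 (by omega) (by omega)

/-- The local product reads the box. -/
theorem TZ_loc (X : Pg) (θ : ℝ) (S : Finset ℕ) (r : ℤ) {ω ω' : Cfg}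
    (h : ∀ j ∈ S, ∀ v ∈ Bq (X.q (j : ZMod X.N)) r, v ∈ X.D → ω v = ω' v) :
    X.TZ θ S r ω = X.TZ θ S r ω' := by
  unfold Pg.TZ Pg.T
  refine prod_congr rfl fun j hj => TX_loc _ _ _ _ ω ω' fun v hv => ?_
  rw [mem_inter] at hv
  exact h j hj v hv.1 hv.2

theorem off (h : Hy θ ms c0 n X L m₀ P Z rZ R1) (hr : r ≤ R1) :
    ∀ i ∈ P, Off X.D (fun v => nm (v - X.q (i : ZMod X.N)) ≤ 2 * r) (X.TZ θ Z rZ) := by
  intro i hi ω ω' hh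
  refine TZ_loc X θ Z rZ fun j hj v hv hvD => hh v fun hv' => ?_
  have hne : i ≠ j := fun e => disjoint_left.1 h.dj hi (e ▸ hj)
  have h1 := h.far (mem_union_left _ hi) (mem_union_right _ hj) hne
  have h2 := nm_of_Bq hv
  have h3 := hv'.2
  have h4 := nm_tri' (X.q (i : ZMod X.N)) v (X.q (j : ZMod X.N))
  have h5 := nm_comm (X.q (i : ZMod X.N)) v
  have h6 := h.rR
  have h7 := h.r1
  simp only at h3
  omega

theorem Z01 (h : Hy θ ms c0 n X L m₀ P Z rZ R1) (h1r : 1 ≤ r) (hr : r ≤ R1) (ω : Cfg) :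
    X.TZ θ Z r ω = 0 ∨ X.TZ θ Z r ω = 1 := by
  classical
  by_cases h1 : ∃ j ∈ Z, X.T θ j r ω = 0
  · obtain ⟨j, hj, h0⟩ := h1
    exact Or.inl (prod_eq_zero hj h0)
  · right
    push Not at h1
    refine prod_eq_one fun j hj => ?_
    rcases h.wZ j hj ω r h1r hr with h2 | h2
    · exact absurd h2 (h1 j hj)
    · exact h2

theorem Z0 (h : Hy θ ms c0 n X L m₀ P Z rZ R1) (ω : Cfg) : 0 ≤ X.TZ θ Z rZ ω := by
  rcases h.Z01 h.z1 h.rR ω with h1 | h1 <;> rw [h1]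
  norm_num

theorem Z1 (h : Hy θ ms c0 n X L m₀ P Z rZ R1) (ω : Cfg) : X.TZ θ Z rZ ω ≤ 1 := by
  rcases h.Z01 h.z1 h.rR ω with h1 | h1 <;> rw [h1]
  norm_num

theorem wl (h : Hy θ ms c0 n X L m₀ P Z rZ R1) (hr : r ≤ R1) :
    Wl θ ((θ - Real.pi) / 2) X.q X.D X.k X.τ P c0 r := fun j hj ω A hA hin =>
  h.wP j hj ω A hA fun e he => Bq_sub hr (hin e he)

theorem TP0 (h : Hy θ ms c0 n X L m₀ P Z rZ R1) (hc0 : 0 ≤ c0) (hr : r ≤ R1) {j : ℕ}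
    (hj : j ∈ P) (ω : Cfg) : 0 ≤ X.T θ j r ω := (h.wl hr).nonneg hc0 hj ω

theorem TZ0 (h : Hy θ ms c0 n X L m₀ P Z rZ R1) (h1r : 1 ≤ r) (hr : r ≤ R1) {j : ℕ}
    (hj : j ∈ Z) (ω : Cfg) : 0 ≤ X.T θ j r ω := by
  rcases h.wZ j hj ω r h1r hr with h2 | h2 <;> rw [h2]
  norm_num

theorem T0 (h : Hy θ ms c0 n X L m₀ P Z rZ R1) (hc0 : 0 ≤ c0) (h1r : 1 ≤ r) (hr : r ≤ R1)
    {j : ℕ} (hj : j ∈ P ∪ Z) (ω : Cfg) : 0 ≤ X.T θ j r ω := by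
  rcases mem_union.1 hj with hj | hj
  · exact h.TP0 hc0 hr hj ω
  · exact h.TZ0 h1r hr hj ω

theorem P0 (h : Hy θ ms c0 n X L m₀ P Z rZ R1) (hc0 : 0 ≤ c0) (hr : r ≤ R1) (ω : Cfg) :
    0 ≤ X.TZ θ P r ω := prod_nonneg fun _ hj => h.TP0 hc0 hr hj ω

/-- **The expectation of the product of the local products.** -/
theorem prodE (h : Hy θ ms c0 n X L m₀ P Z rZ R1) (hQ : 1 ≤ 2 * Real.cos θ) (hc0 : 0 ≤ c0)
    (h3 : r3 ≤ rZ) :
    (1 / 2 : ℝ) ^ ms * ((∏ j ∈ P, X.eT θ j r3) * ∏ j ∈ Z, X.eT θ j rZ) ≤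
      X.E θ (fun ω => X.TZ θ Z rZ ω * X.TZ θ P r3 ω) := by
  classical
  have hQ0 : 0 < 2 * Real.cos θ := by linarith
  obtain ⟨F, hF⟩ : ∃ F : ℕ → Cfg → ℝ, F = fun j => if j ∈ P then X.T θ j r3 else X.T θ j rZ :=
    ⟨_, rfl⟩
  have hF0 : ∀ j ∈ P ∪ Z, ∀ ω, 0 ≤ F j ω := by
    intro j hj ω
    rw [hF]
    show 0 ≤ (if j ∈ P then X.T θ j r3 else X.T θ j rZ) ω
    split_ifs with hjP
    · exact h.TP0 hc0 (h3.trans h.rR) hjP ω
    · exact h.TZ0 h.z1 h.rR ((mem_union.1 hj).resolve_left hjP) ω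
  have hFl : ∀ j ∈ P ∪ Z, Loc (Bq (X.q (j : ZMod X.N)) rZ ∩ X.D) (F j) := by
    intro j hj
    rw [hF]
    show Loc _ (if j ∈ P then X.T θ j r3 else X.T θ j rZ)
    split_ifs
    · intro ω ω' hh
      refine TX_loc _ _ _ _ ω ω' fun v hv => hh v ?_
      rw [mem_inter] at hv ⊢
      exact ⟨Bq_sub h3 hv.1, hv.2⟩
    · exact fun ω ω' hh => TX_loc _ _ _ _ ω ω' hh
  have key := (H975.ex_prod (Q := 2 * Real.cos θ) (D := X.D) (η := X.η) (r := rZ) (R := R1)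
    (ε := 1 / 2) hQ (by norm_num) (by norm_num) h.sit.good (fun j : ℕ => X.q (j : ZMod X.N)) F
    (P ∪ Z) h.mx hF0 hFl (fun i hi j hj hij => by
      rw [disjoint_left]
      intro v hv hv'
      have a1 := h.far hi hj hij
      have a2 := nm_of_Bq hv
      have a3 := nm_of_Bq hv'
      have a4 := nm_tri' (X.q (i : ZMod X.N)) v (X.q (j : ZMod X.N))
      have a5 := nm_comm (X.q (i : ZMod X.N)) v
      have a6 := h.rR
      have a7 := h.r1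
      omega)).1
  have e1 : ∀ ω, ∏ i ∈ P ∪ Z, F i ω = X.TZ θ Z rZ ω * X.TZ θ P r3 ω := by
    intro ω
    rw [prod_union h.dj, mul_comm]
    congr 1
    · refine prod_congr rfl fun j hj => ?_
      have hjP : j ∉ P := fun hc => disjoint_left.1 h.dj hc hj
      rw [hF]
      show (if j ∈ P then X.T θ j r3 else X.T θ j rZ) ω = _
      rw [if_neg hjP]
    · refine prod_congr rfl fun j hj => ?_
      rw [hF]
      show (if j ∈ P then X.T θ j r3 else X.T θ j rZ) ω = _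
      rw [if_pos hj]
  have e2 : ∏ i ∈ P ∪ Z, Ex (2 * Real.cos θ) X.D X.η (F i) =
      (∏ j ∈ P, X.eT θ j r3) * ∏ j ∈ Z, X.eT θ j rZ := by
    rw [prod_union h.dj]
    congr 1
    · refine prod_congr rfl fun j hj => ?_
      have : F j = X.T θ j r3 := by
        rw [hF]
        exact if_pos hj
      rw [this]
      rfl
    · refine prod_congr rfl fun j hj => ?_
      have hjP : j ∉ P := fun hc => disjoint_left.1 h.dj hc hj
      have : F j = X.T θ j rZ := by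
        rw [hF]
        exact if_neg hjP
      rw [this]
      rfl
  have e3 : (fun ω => ∏ i ∈ P ∪ Z, F i ω) = fun ω => X.TZ θ Z rZ ω * X.TZ θ P r3 ω :=
    funext e1
  rw [e2, e3] at key
  refine le_trans ?_ key
  refine mul_le_mul_of_nonneg_right ?_ ?_
  · rw [show (1 : ℝ) - 1 / 2 = 1 / 2 by norm_num]
    exact pow_le_pow_of_le_one (by norm_num) (by norm_num) h.card
  · refine mul_nonneg (prod_nonneg fun j hj => ?_) (prod_nonneg fun j hj => ?_)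
    · exact Ex_nonneg hQ0 fun S _ => h.TP0 hc0 (h3.trans h.rR) hj _
    · exact Ex_nonneg hQ0 fun S _ => h.TZ0 h.z1 h.rR hj _

end Hy

end Vale.Agent.P167.H562.LG
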