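import Vale.Agent.P167.H562.LG.Det

/-!
# P167, general `q`, block Q-LAM, lower bound: law part
-/

namespace Vale.Agent.P167.H562.LG

open Finset
open Vale.Agent.P167.E6 (IsPolygon Encloses)
open Vale.Agent.P167.BR
open Vale.Agent.P167.FK (Bq Ex Good RSW cf)
open Vale.Agent.P167.FKA (Loc Ex_mono Ex_congr Ex_const Ex_mul_left Ex_nonneg Ex_sub)
open Vale.Agent.P167.H166 (bxx mem_bxx)
open Vale.Agent.P167.H562.QM (MajA OneC Nr)
open Vale.Agent.P167.H975 (TX TX_loc)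
open Vale.Agent.P167.H601.LG
open Vale.Agent.P167.H601.S2

section abs

variable {Q : ℝ} {D : Finset (ℤ × ℤ)} {η : Cfg}

/-- Truncation. -/
theorem trunc (hQ : 0 < Q) {G H N : Cfg → ℝ} (hG : ∀ ω, 0 ≤ G ω) (hH0 : ∀ ω, 0 ≤ H ω)
    (hH1 : ∀ ω, H ω ≤ 1) {s Y c2 M0 : ℝ} (hs : 0 < s)
    (hm : Ex Q D η (fun ω => G ω * Real.exp (s * N ω)) ≤ Y * Ex Q D η G)
    (hH : c2 * Ex Q D η G ≤ Ex Q D η (fun ω => G ω * H ω))
    (hM0 : Y * Real.exp (-(s * M0)) ≤ c2 / 2) :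
    Real.exp (-(s / 4 * M0)) * (c2 / 2) * Ex Q D η G ≤
      Ex Q D η (fun ω => G ω * H ω * Real.exp (-(s / 4 * N ω))) := by
  have h1 : Ex Q D η (fun ω => Real.exp (-(s / 4 * M0)) * (G ω * H ω -
      Real.exp (-(s * M0)) * (G ω * Real.exp (s * N ω)))) ≤
      Ex Q D η (fun ω => G ω * H ω * Real.exp (-(s / 4 * N ω))) := by
    refine Ex_mono hQ fun S _ => ?_
    obtain ⟨ω, hω⟩ : ∃ ω, ω = cf D η S := ⟨_, rfl⟩
    rw [← hω]
    have g0 := hG ω
    have a0 := hH0 ω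
    have a1 := hH1 ω
    have gh : 0 ≤ G ω * H ω := mul_nonneg g0 a0
    rcases le_total (N ω) M0 with h | h
    · have h2 : Real.exp (-(s / 4 * M0)) ≤ Real.exp (-(s / 4 * N ω)) :=
        Real.exp_le_exp.2 (by nlinarith)
      have h3 : 0 ≤ Real.exp (-(s * M0)) * (G ω * Real.exp (s * N ω)) := by positivity
      calc Real.exp (-(s / 4 * M0)) * (G ω * H ω -
            Real.exp (-(s * M0)) * (G ω * Real.exp (s * N ω)))
          ≤ Real.exp (-(s / 4 * M0)) * (G ω * H ω) :=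
            mul_le_mul_of_nonneg_left (by linarith) (Real.exp_pos _).le
        _ ≤ Real.exp (-(s / 4 * N ω)) * (G ω * H ω) := mul_le_mul_of_nonneg_right h2 gh
        _ = _ := mul_comm _ _
    · have h2 : 1 ≤ Real.exp (-(s * M0)) * Real.exp (s * N ω) := by
        rw [← Real.exp_add]
        exact Real.one_le_exp (by nlinarith)
      have h3 : G ω ≤ Real.exp (-(s * M0)) * (G ω * Real.exp (s * N ω)) := by
        calc G ω = G ω * 1 := (mul_one _).symm
          _ ≤ G ω * (Real.exp (-(s * M0)) * Real.exp (s * N ω)) :=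
            mul_le_mul_of_nonneg_left h2 g0
          _ = _ := by ring
      have h4 : G ω * H ω ≤ G ω := mul_le_of_le_one_right g0 a1
      calc _ ≤ 0 := mul_nonpos_of_nonneg_of_nonpos (Real.exp_pos _).le (by linarith)
        _ ≤ _ := mul_nonneg gh (Real.exp_pos _).le
  rw [Ex_mul_left, Ex_sub, Ex_mul_left] at h1
  refine le_trans ?_ h1
  rw [mul_assoc]
  refine mul_le_mul_of_nonneg_left ?_ (Real.exp_pos _).le
  have h5 := mul_le_mul_of_nonneg_left hm (Real.exp_pos (-(s * M0))).le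
  have h6 := mul_le_mul_of_nonneg_right hM0 (Ex_nonneg (D := D) (η := η) hQ fun S _ => hG _)
  nlinarith

/-- Cauchy-Schwarz for two moments. -/
theorem two_mom (hQ : 0 < Q) {T N1 N2 : Cfg → ℝ} (hT : ∀ ω, 0 ≤ T ω) {s C1 C2 : ℝ}
    (hC1 : 0 ≤ C1) (hC2 : 0 ≤ C2)
    (h1 : Ex Q D η (fun ω => T ω * Real.exp (4 * s * N1 ω)) ≤ C1 * Ex Q D η T)
    (h2 : Ex Q D η (fun ω => T ω * Real.exp (4 * s * N2 ω)) ≤ C2 * Ex Q D η T) :
    Ex Q D η (fun ω => T ω * Real.exp (2 * s * (N1 ω + N2 ω))) ≤ (C1 + C2) * Ex Q D η T := by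
  have h3 := ex_cs (Q := Q) (D := D) (η := η) hQ hT (fun ω => Real.exp (2 * s * N1 ω))
    (fun ω => Real.exp (2 * s * N2 ω))
  have e1 : ∀ N : Cfg → ℝ, (fun ω => T ω * Real.exp (2 * s * N ω) ^ 2) =
      fun ω => T ω * Real.exp (4 * s * N ω) := by
    intro N
    funext ω
    rw [← Real.exp_nat_mul]
    congr 2
    push_cast
    ring
  rw [e1, e1] at h3
  have e2 : (fun ω => T ω * (Real.exp (2 * s * N1 ω) * Real.exp (2 * s * N2 ω))) =
      fun ω => T ω * Real.exp (2 * s * (N1 ω + N2 ω)) := by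
    funext ω
    rw [← Real.exp_add]
    congr 2
    ring
  rw [e2] at h3
  have e0 : 0 ≤ Ex Q D η T := Ex_nonneg hQ fun _ _ => hT _
  have h4 : Ex Q D η (fun ω => T ω * Real.exp (2 * s * (N1 ω + N2 ω))) ^ 2 ≤
      ((C1 + C2) * Ex Q D η T) ^ 2 := by
    refine h3.trans ((mul_le_mul h1 h2 (Ex_nonneg hQ fun _ _ => mul_nonneg (hT _)
      (Real.exp_pos _).le) (by positivity)).trans ?_)
    have : C1 * C2 ≤ (C1 + C2) ^ 2 := by nlinarith
    calc C1 * Ex Q D η T * (C2 * Ex Q D η T) = C1 * C2 * Ex Q D η T ^ 2 := by ring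
      _ ≤ (C1 + C2) ^ 2 * Ex Q D η T ^ 2 := mul_le_mul_of_nonneg_right this (sq_nonneg _)
      _ = _ := by ring
  exact (abs_le_of_sq_le_sq' h4 (by positivity)).2

end abs

section zero

variable {w : Finset Ed → ℝ} {D : Finset (ℤ × ℤ)} {c : ℤ × ℤ} {r r' : ℤ} {ω : Cfg}

/-- A local product with values `0` and `1` is decreasing in the radius. -/
theorem TX_anti (hr : r' ≤ r) (h : TX w D c r ω = 0 ∨ TX w D c r ω = 1)
    (h' : TX w D c r' ω = 0 ∨ TX w D c r' ω = 1) :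
    TX w D c r ω ≤ TX w D c r' ω := by
  classical
  rcases h' with h1 | h1
  · rw [h1]
    unfold TX at h1 ⊢
    rw [prod_eq_zero_iff] at h1
    obtain ⟨A, hA, hA0⟩ := h1
    have hA' := mem_filter.1 hA
    refine le_of_eq (prod_eq_zero (i := A) (mem_filter.2 ⟨hA'.1, fun e he => ?_⟩) hA0)
    exact Bq_sub hr (hA'.2 e he)
  · rw [h1]
    rcases h with h2 | h2 <;> rw [h2]
    norm_num

end zero

end Vale.Agent.P167.H562.LG
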