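import Vale.Agent.P167.H562.LG.Hy

/-!
# P167, general `q`, block Q-LAM, lower bound: one polygon
-/

namespace Vale.Agent.P167.H562.LG

open Finset
open Vale.Agent.P167.E6 (IsPolygon Encloses)
open Vale.Agent.P167.BR
open Vale.Agent.P167.FK (Bq Ex Good RSW cf)
open Vale.Agent.P167.FKA (Loc Ex_mono Ex_congr Ex_const Ex_mul_left Ex_nonneg Ex_sub)
open Vale.Agent.P167.H562.QM (MajA OneC Nr)
open Vale.Agent.P167.H365.NQ (XW)
open Vale.Agent.P167.H975 (TX TX_loc)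
open Vale.Agent.P167.H167.Q (MxA)
open Vale.Agent.P167.H601.LG
open Vale.Agent.P167.H601.S2
open Vale.Agent.P167.H718.Lam (Pg)

/-- The second conclusion of `mom_J` for one point. -/
def Dn (θ c0 : ℝ) (ms E : ℕ) (K : ℤ) (Y : ℝ) : Prop :=
  ∀ {n N L k : ℕ} {m₀ : ℤ} {q : ZMod N → ℤ × ℤ} {D : Finset (ℤ × ℤ)} {τ : ℕ → ℤ} {η : Cfg}
    {β : ℝ}, Sit n N L m₀ q D k τ η → ∀ P : Finset ℕ, (∀ j ∈ P, j < N ∧ Spe τ k j) →
    P.card ≤ ms → ∀ r : ℤ, E * K ≤ r → 24 * r < n → 16 * r < L → 4 * r ≤ m₀ →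
    Wl θ β q D k τ P c0 r →
    Ex (2 * Real.cos θ) D η (PT θ β q D k τ P r) ≤
      Y * Ex (2 * Real.cos θ) D η (PT θ β q D k τ P (r / E))

namespace Hy

variable {θ c0 s : ℝ} {ms n L E m : ℕ} {X : Pg} {m₀ rZ R1 r r3 K : ℤ} {P Z : Finset ℕ} {ω : Cfg}

/-- **Smaller radius.** -/
theorem down (h : Hy θ ms c0 n X L m₀ P Z rZ R1) {Y : ℝ} (hY : 1 ≤ Y) (hd : Dn θ c0 ms E K Y)
    (hE : 1 ≤ E) (hm : K ≤ rr R1 E m) {j : ℕ} (hj : j ∈ P) :
    X.eT θ j R1 ≤ Y ^ m * X.eT θ j (rr R1 E m) := by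
  have hR0 : 0 ≤ R1 := zero_le_one.trans h.r1
  have key : ∀ i ≤ m, X.eT θ j R1 ≤ Y ^ i * X.eT θ j (rr R1 E i) := by
    intro i
    induction i with
    | zero =>
      intro _
      rw [rr_zero, pow_zero, one_mul]
    | succ i ih =>
      intro hi
      have h1 := ih (by omega)
      refine h1.trans ?_
      rw [pow_succ, mul_assoc]
      refine mul_le_mul_of_nonneg_left ?_ (by positivity)
      have a1 : rr R1 E i ≤ R1 := by
        have := rr_anti hR0 E (Nat.zero_le i)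
        rwa [rr_zero] at this
      have a2 : K ≤ rr R1 E (i + 1) := hm.trans (rr_anti hR0 E hi)
      have a3 := rr_down (r := R1) hE i
      have a4 : E * K ≤ rr R1 E i :=
        (mul_le_mul_of_nonneg_left a2 (by positivity)).trans a3
      have a5 := h.hn
      have a6 := h.hL
      have a7 := h.hm
      have key := hd h.sit {j} (β := (θ - Real.pi) / 2) (fun a ha => by
          rw [mem_singleton] at ha
          rw [ha]
          exact h.spe j (mem_union_left _ hj)) (by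
          rw [card_singleton]
          exact le_trans (card_pos.2 ⟨j, mem_union_left _ hj⟩) h.card) (rr R1 E i) a4
        (by omega) (by omega) (by omega) (fun a ha => by
          rw [mem_singleton] at ha
          rw [ha]
          exact h.wl a1 j hj)
      have e1 : ∀ r, Ex (2 * Real.cos θ) X.D X.η
          (PT θ ((θ - Real.pi) / 2) X.q X.D X.k X.τ {j} r) = X.eT θ j r := by
        intro r
        have : PT θ ((θ - Real.pi) / 2) X.q X.D X.k X.τ {j} r = X.T θ j r := by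
          funext ω
          unfold PT
          rw [prod_singleton]
          rfl
        rw [this]
        rfl
      rw [e1, e1, ← rr_succ] at key
      exact key
  exact key m le_rfl

/-- The product of the expectations. -/
theorem downP (h : Hy θ ms c0 n X L m₀ P Z rZ R1) (hQ : 1 ≤ 2 * Real.cos θ) (hc0 : 0 ≤ c0)
    {Y : ℝ} (hY : 1 ≤ Y)
    (hd : Dn θ c0 ms E K Y) (hE : 1 ≤ E) (hm : K ≤ rr R1 E m) :
    (1 / Y ^ m) ^ ms * ∏ j ∈ P ∪ Z, X.eT θ j R1 ≤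
      (∏ j ∈ P, X.eT θ j (rr R1 E m)) * ∏ j ∈ Z, X.eT θ j rZ := by
  classical
  have hQ0 : 0 < 2 * Real.cos θ := by linarith
  have hYm : 1 ≤ Y ^ m := one_le_pow₀ hY
  have hYi : 1 / Y ^ m ≤ 1 := by
    rw [div_le_one (by linarith)]
    exact hYm
  have hYp : 0 < 1 / Y ^ m := by positivity
  have hT : ∀ j ∈ P ∪ Z, 0 ≤ X.eT θ j R1 := fun j hj =>
    Ex_nonneg hQ0 fun S _ => h.T0 hc0 h.r1 le_rfl hj _
  have hPm : (1 / Y ^ m) ^ ms ≤ (1 / Y ^ m) ^ P.card :=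
    pow_le_pow_of_le_one hYp.le hYi ((card_le_card subset_union_left).trans h.card)
  rw [prod_union h.dj]
  have p1 : 0 ≤ ∏ j ∈ P, X.eT θ j R1 := prod_nonneg fun j hj => hT j (mem_union_left _ hj)
  have p2 : 0 ≤ ∏ j ∈ Z, X.eT θ j R1 := prod_nonneg fun j hj => hT j (mem_union_right _ hj)
  have q1 : (1 / Y ^ m) ^ P.card * ∏ j ∈ P, X.eT θ j R1 ≤ ∏ j ∈ P, X.eT θ j (rr R1 E m) := by
    rw [← prod_const, ← prod_mul_distrib]
    refine prod_le_prod (fun j hj => mul_nonneg hYp.le (hT j (mem_union_left _ hj)))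
      fun j hj => ?_
    have := h.down hY hd hE hm hj
    rw [one_div, inv_mul_le_iff₀ (by linarith)]
    exact this
  have q2 : ∏ j ∈ Z, X.eT θ j R1 ≤ ∏ j ∈ Z, X.eT θ j rZ := by
    refine prod_le_prod (fun j hj => hT j (mem_union_right _ hj)) fun j hj => ?_
    refine Ex_mono hQ0 fun S _ => ?_
    exact TX_anti h.rR (h.wZ j hj _ R1 h.r1 le_rfl) (h.wZ j hj _ rZ h.z1 h.rR)
  calc (1 / Y ^ m) ^ ms * ((∏ j ∈ P, X.eT θ j R1) * ∏ j ∈ Z, X.eT θ j R1)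
      ≤ (1 / Y ^ m) ^ P.card * ((∏ j ∈ P, X.eT θ j R1) * ∏ j ∈ Z, X.eT θ j R1) :=
        mul_le_mul_of_nonneg_right hPm (mul_nonneg p1 p2)
    _ = ((1 / Y ^ m) ^ P.card * ∏ j ∈ P, X.eT θ j R1) * ∏ j ∈ Z, X.eT θ j R1 := by ring
    _ ≤ (∏ j ∈ P, X.eT θ j (rr R1 E m)) * ∏ j ∈ Z, X.eT θ j rZ := by
        refine mul_le_mul q1 q2 p2 ?_
        exact le_trans (mul_nonneg (by positivity) p1) q1

/-- **The lower bound from a moment.** -/
theorem low (h : Hy θ ms c0 n X L m₀ P Z rZ R1) (h0 : 0 < θ) (h1 : θ ≤ Real.pi / 3)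
    (hQ : 1 ≤ 2 * Real.cos θ) (hc0 : 0 < c0) (hc1 : c0 ≤ 1) (hs : 0 < s)
    (hs1 : Real.exp (-(s / 4)) ≤ c0) (h3 : r3 ≤ rZ) {κn : ℝ}
    (hκ : κn ≤ (R1 : ℝ) / 16) {Nf : ℕ → Cfg → ℕ} {N0 : Cfg → ℕ}
    (hMf : ∀ j ∈ P, ∀ ω, MajA (Bq (X.q (j : ZMod X.N)) R1) ((r3 : ℝ) / 16) ω (Nf j ω))
    (hM0 : ∀ ω, MajA X.D κn ω (N0 ω)) (hX0 : ∀ ω, 0 ≤ XW X.D (X.w θ) ω)
    {H : Cfg → ℝ} (hH : ∀ ω, 0 ≤ H ω ∧ H ω ≤ 1)
    (hHc : ∀ ω, H ω ≠ 0 → X.TZ θ Z rZ ω ≠ 0 → ∀ A ∈ pcs ω X.D, c0 ≤ X.w θ A)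
    {c2 Y M0 : ℝ} (hHE : c2 * X.E θ (fun ω => X.TZ θ Z rZ ω * X.TZ θ P r3 ω) ≤
      X.E θ (fun ω => X.TZ θ Z rZ ω * X.TZ θ P r3 ω * H ω))
    (hmom : X.E θ (fun ω => X.TZ θ Z rZ ω * X.TZ θ P r3 ω *
      Real.exp (s * ((((∑ j ∈ P, Nf j ω) + N0 ω : ℕ)) : ℝ))) ≤
        Y * X.E θ (fun ω => X.TZ θ Z rZ ω * X.TZ θ P r3 ω))
    (hM : Y * Real.exp (-(s * M0)) ≤ c2 / 2) :
    Real.exp (-(s / 4 * M0)) * (c2 / 2) *
      X.E θ (fun ω => X.TZ θ Z rZ ω * X.TZ θ P r3 ω) ≤ X.eX θ := by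
  have hQ0 : 0 < 2 * Real.cos θ := by linarith
  have hZ0 := h.Z0
  have hP0 := h.P0 hc0.le (h3.trans h.rR)
  refine (trunc (Q := 2 * Real.cos θ) (D := X.D) (η := X.η) hQ0
    (G := fun ω => X.TZ θ Z rZ ω * X.TZ θ P r3 ω) (H := H)
    (N := fun ω => ((((∑ j ∈ P, Nf j ω) + N0 ω : ℕ)) : ℝ))
    (fun ω => mul_nonneg (hZ0 ω) (hP0 ω)) (fun ω => (hH ω).1) (fun ω => (hH ω).2) hs
    hmom hHE hM).trans ?_
  refine Ex_mono hQ0 fun S _ => ?_
  obtain ⟨ω, hω⟩ : ∃ ω, ω = cf X.D X.η S := ⟨_, rfl⟩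
  rw [← hω]
  by_cases hJ : X.TZ θ Z rZ ω = 0
  · rw [hJ]
    simpa using hX0 ω
  by_cases hHω : H ω = 0
  · rw [hHω]
    simpa using hX0 ω
  have hall := hHc ω hHω hJ
  have a1 := h.hn
  have a2 := h.r1
  have a3 := h.rR
  have hlow := XW_low (θ := θ) (β := (θ - Real.pi) / 2) (c0 := c0) (P := P) (Z := Z) (ω := ω)
    h0 h1 h.sit.geo h.sit.poly h.sit.enc h.all h.dj (r3 := r3) (R1 := R1)
    (fun i hi j hj hij => by
      have := h.far hi hj hij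
      omega) (h3.trans h.rR) (by omega) hc0 hc1 hall
    (fun j hj => by
      rcases h.wZ j hj ω R1 h.r1 le_rfl with h5 | h5
      · exfalso
        have h6 : 0 < X.T θ j R1 ω := by
          unfold Pg.T TX
          refine prod_pos fun A hA => ?_
          exact hc0.trans_le (hall A (mem_filter.1 hA).1)
        rw [h5] at h6
        exact lt_irrefl _ h6
      · exact h5) hκ (fun j hj => hMf j hj ω) (hM0 ω)
  refine le_trans ?_ hlow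
  obtain ⟨M, hMd⟩ : ∃ M : ℕ, M = (∑ j ∈ P, Nf j ω) + N0 ω := ⟨_, rfl⟩
  rw [← hMd]
  have e1 : Real.exp (-(s / 4 * (M : ℝ))) ≤ c0 ^ M := by
    have : Real.exp (-(s / 4 * (M : ℝ))) = Real.exp (-(s / 4)) ^ M := by
      rw [← Real.exp_nat_mul]
      congr 1
      ring
    rw [this]
    exact pow_le_pow_left₀ (Real.exp_pos _).le hs1 M
  have e2 : X.TZ θ Z rZ ω * X.TZ θ P r3 ω * H ω ≤ X.TZ θ P r3 ω := by
    have b1 := h.Z1 ω
    have b2 := (hH ω).2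
    calc X.TZ θ Z rZ ω * X.TZ θ P r3 ω * H ω ≤ X.TZ θ Z rZ ω * X.TZ θ P r3 ω :=
          mul_le_of_le_one_right (mul_nonneg (hZ0 ω) (hP0 ω)) b2
      _ ≤ X.TZ θ P r3 ω := mul_le_of_le_one_left (hP0 ω) b1
  calc X.TZ θ Z rZ ω * X.TZ θ P r3 ω * H ω * Real.exp (-(s / 4 * (M : ℝ)))
      ≤ X.TZ θ P r3 ω * c0 ^ M := mul_le_mul e2 e1 (Real.exp_pos _).le (hP0 ω)
    _ = c0 ^ M * X.TZ θ P r3 ω := mul_comm _ _

end Hy

end Vale.Agent.P167.H562.LG
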