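import Vale.Agent.P167.H562.LG.Core

/-!
# P167, general `q`, block Q-LAM: the lower bound, general form

`l_gen`: `L_gen θ` from `RSW` and `SRSW`.
-/

namespace Vale.Agent.P167.H562.LG

open Finset
open Vale.Agent.P167.E6 (IsPolygon Encloses)
open Vale.Agent.P167.BR
open Vale.Agent.P167.FK (Bq Ex Good RSW cf)
open Vale.Agent.P167.FKA (Loc Ex_mono Ex_congr Ex_const Ex_mul_left Ex_nonneg Ex_sub)
open Vale.Agent.P167.H562.QM (MajA OneC Nr)
open Vale.Agent.P167.H365.NQ (XW)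
open Vale.Agent.P167.H975 (TX TX_loc mx_ratio)
open Vale.Agent.P167.H167.Q (MxA)
open Vale.Agent.P167.H192.Q (SRSW)
open Vale.Agent.P167.H601.LG
open Vale.Agent.P167.H601.S2
open Vale.Agent.P167.H718.Lam (Pg L_gen)

/-- The exponent. -/
theorem exists_s {A0 c0 : ℝ} (hA : 1 ≤ A0) (hc0 : 0 < c0) (hc1 : c0 ≤ 1) :
    ∃ s : ℝ, 0 < s ∧ A0 ≤ Real.exp (s / 2) ∧ Real.exp (-(s / 4)) ≤ c0 := by
  have h1 : 0 ≤ Real.log A0 := Real.log_nonneg hA
  have h2 : 0 ≤ -Real.log c0 := by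
    have := Real.log_nonpos hc0.le hc1
    linarith
  refine ⟨2 * Real.log A0 + 4 * -Real.log c0 + 1, by positivity, ?_, ?_⟩
  · calc A0 = Real.exp (Real.log A0) := (Real.exp_log (by linarith)).symm
      _ ≤ _ := Real.exp_le_exp.2 (by linarith)
  · calc _ ≤ Real.exp (Real.log c0) := Real.exp_le_exp.2 (by linarith)
      _ = c0 := Real.exp_log hc0

theorem exists_M0 {s Y c2 : ℝ} (hs : 0 < s) (hY : 1 ≤ Y) (hc2 : 0 < c2) :
    ∃ M0 : ℝ, Y ^ 4 * Real.exp (-(s * M0)) ≤ c2 / 2 := by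
  have hY4 : 0 < Y ^ 4 := by positivity
  refine ⟨Real.log (2 * Y ^ 4 / c2) / s, ?_⟩
  rw [mul_div_cancel₀ _ hs.ne', Real.exp_neg, Real.exp_log (by positivity), inv_div]
  apply le_of_eq
  field_simp

/-- The number of the special points. -/
theorem card_sp {X : Pg} {n : ℕ} {σ R R' : ℝ} (hX : X.Ok n σ R) (hσ : 0 < σ) (hR : R ≤ R')
    (hn : 2 ≤ σ * n) : X.sp.card ≤ ⌊2 * R' / σ⌋₊ + 1 := by
  classical
  have hn0 : 0 < (n : ℝ) := by
    by_contra hcon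
    push Not at hcon
    nlinarith
  have hL0 : σ * n / 2 ≤ (⌊σ * n⌋₊ : ℝ) := by
    have := Nat.lt_floor_add_one (σ * n)
    linarith
  have hL1 : 1 ≤ ⌊σ * n⌋₊ := by
    rw [Nat.one_le_floor_iff]
    linarith
  have h1 := card_sep (S := X.sp) (N := X.N) hL1 (fun i hi => by
    unfold Pg.sp at hi
    rw [mem_filter, mem_range] at hi
    exact hi.1) fun i hi j hj hij => by
    unfold Pg.sp at hi hj
    rw [mem_filter, mem_range] at hi hj
    exact (hX.sep i j hij hj.1 hi.2 hj.2).1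
  refine h1.trans (Nat.add_le_add_right (Nat.le_floor ?_) 1)
  have hLp : (0 : ℝ) < (⌊σ * n⌋₊ : ℝ) := by
    have : 0 < σ * n / 2 := by linarith
    linarith
  calc ((X.N / ⌊σ * n⌋₊ : ℕ) : ℝ) ≤ (X.N : ℝ) / (⌊σ * n⌋₊ : ℝ) := Nat.cast_div_le
    _ ≤ 2 * R' / σ := by
      rw [div_le_div_iff₀ hLp hσ]
      have h3 := hX.len
      have h4 : (X.N : ℝ) ≤ R' * n := h3.trans (mul_le_mul_of_nonneg_right hR hn0.le)
      have h5 : (0 : ℝ) ≤ X.N := Nat.cast_nonneg _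
      have h6 : 0 ≤ R' := by
        by_contra hcon
        push Not at hcon
        nlinarith
      calc (X.N : ℝ) * σ ≤ R' * n * σ := mul_le_mul_of_nonneg_right h4 hσ.le
        _ = 2 * R' * (σ * n / 2) := by ring
        _ ≤ 2 * R' * (⌊σ * n⌋₊ : ℝ) := mul_le_mul_of_nonneg_left hL0 (by linarith)

/-- **[L-GEN]** -/
theorem l_gen {θ : ℝ} (h0 : 0 < θ) (h1 : θ ≤ Real.pi / 3) (hR : RSW (2 * Real.cos θ))
    (hSR : SRSW (2 * Real.cos θ)) : L_gen θ := by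
  classical
  have hcos : 1 / 2 ≤ Real.cos θ := by
    rw [← Real.cos_pi_div_three]
    exact Real.cos_le_cos_of_nonneg_of_le_pi h0.le (by linarith [Real.pi_pos]) h1
  have hQ : 1 ≤ 2 * Real.cos θ := by linarith
  intro σ R c₁ hσ hc₁
  obtain ⟨R', hR'⟩ : ∃ R', R' = max R 0 := ⟨_, rfl⟩
  have hRR : R ≤ R' := by rw [hR']; exact le_max_left _ _
  have hR0 : 0 ≤ R' := by rw [hR']; exact le_max_right _ _
  obtain ⟨c0, hc0d⟩ : ∃ c0, c0 = min c₁ 1 := ⟨_, rfl⟩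
  have hc0 : 0 < c0 := by rw [hc0d]; exact lt_min hc₁ one_pos
  have hc1 : c0 ≤ 1 := by rw [hc0d]; exact min_le_right _ _
  have hcc : c0 ≤ c₁ := by rw [hc0d]; exact min_le_left _ _
  obtain ⟨s, hs, hs0, hs1⟩ := exists_s (one_le_A0 h0 h1) hc0 hc1
  obtain ⟨ms, hms⟩ : ∃ ms, ms = ⌊2 * R' / σ⌋₊ + 1 := ⟨_, rfl⟩
  obtain ⟨e1f, he1f, Hf⟩ := exists_far hQ hR ms
  obtain ⟨e1p, he1p, Hp⟩ := exists_nearn hQ hR
  obtain ⟨E, hE0, hE2, K, hK, HM⟩ := mom_J h0 h1 hR ms hc0 hc1 hs hs0 hs1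
    ⌈(1 + |4 * s|) / (e1p * (1 / 16))⌉₊
  obtain ⟨Kx, hKx, HX⟩ := mx_ratio hQ hR hSR (ε := 1 / 2) (by norm_num)
  obtain ⟨Y1, hY1, hd1⟩ := HM 1 zero_le_one
  have hd : Dn θ c0 ms E K (Y1 ^ 4) := dn_of_mj (s := s) @hd1
  have hE1 : 1 ≤ E := by omega
  have hE1' : (1 : ℝ) ≤ E := by exact_mod_cast hE1
  have hEe : 1 ≤ e1p * (1 / 16) / (1 + |4 * s|) * E := by
    have b0 : 0 < 1 + |4 * s| := by positivity
    have b1 : (1 + |4 * s|) / (e1p * (1 / 16)) ≤ E :=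
      (Nat.le_ceil _).trans (by exact_mod_cast hE0)
    rw [div_le_iff₀ (by positivity)] at b1
    rw [div_mul_eq_mul_div, le_div_iff₀ b0, one_mul]
    linarith
  refine ⟨min (σ / 100) (1 / 100), lt_min (by positivity) (by norm_num), min_le_left _ _,
    min_le_right _ _, fun ρ hρ hρ0 => ?_⟩
  have hρσ : ρ ≤ σ / 100 := hρ0.trans (min_le_left _ _)
  have hρ1 : ρ ≤ 1 / 100 := hρ0.trans (min_le_right _ _)
  obtain ⟨κ, hκ⟩ : ∃ κ, κ = ρ / 32 := ⟨_, rfl⟩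
  have hκ0 : 0 < κ := by rw [hκ]; positivity
  obtain ⟨Cf, ρf, hCf, hρf, Hf⟩ := Hf κ R' (4 * s) hκ0 hR0
  obtain ⟨ε, hε⟩ : ∃ ε, ε = min ρ (min (e1f * κ / (1 + |4 * s|)) (ρ / (4 * Kx))) := ⟨_, rfl⟩
  have hε0 : 0 < ε := by rw [hε]; exact lt_min hρ (lt_min (by positivity) (by positivity))
  have hερ : ε ≤ ρ := by rw [hε]; exact min_le_left _ _
  have hεf : ε ≤ e1f * κ / (1 + |4 * s|) := by
    rw [hε]; exact (min_le_right _ _).trans (min_le_left _ _)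
  have hεx : ε ≤ ρ / (4 * Kx) := by
    rw [hε]; exact (min_le_right _ _).trans (min_le_right _ _)
  refine ⟨ε, hε0, hερ, fun c₂ hc₂ => ?_⟩
  obtain ⟨m, hm⟩ := pow_unbounded_of_one_lt (ρ / ε) (by exact_mod_cast (by omega : 1 < E) :
    (1 : ℝ) < E)
  have hEm : 0 < (E : ℝ) ^ m := by positivity
  obtain ⟨Cp, ρp, hCp, hρp, Hp⟩ := Hp (2 * (E : ℝ) ^ m) (4 * s) (by positivity)
  obtain ⟨Y, hY, hmj⟩ := HM (max 1 Cp ^ ms + Cf) (by positivity)
  obtain ⟨M0, hM0⟩ := exists_M0 hs hY hc₂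
  have hK0 : (0 : ℝ) < K := by exact_mod_cast (by omega : 0 < K)
  refine ⟨Real.exp (-(s / 4 * M0)) * (c₂ / 2) * ((1 / 2 : ℝ) ^ ms * (1 / (Y1 ^ 4) ^ m) ^ ms),
    ⌈2 / σ + 2 / ρ + 1 / ε + 2 * (E : ℝ) ^ m * (E * K + ρp + 1) / ρ + ρf + 1⌉₊,
    by positivity, ?_⟩
  intro n hn X hX P Z hPZ hU hP hZ hX0 H hH hHc hHE
  have hnr : 2 / σ + 2 / ρ + 1 / ε + 2 * (E : ℝ) ^ m * (E * K + ρp + 1) / ρ + ρf + 1 ≤ n :=
    (Nat.le_ceil _).trans (by exact_mod_cast hn)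
  have t1 : 0 < 2 / σ := by positivity
  have t2 : 0 < 2 / ρ := by positivity
  have t3 : 0 < 1 / ε := by positivity
  have t4 : 0 < 2 * (E : ℝ) ^ m * (E * K + ρp + 1) / ρ := by positivity
  have n1 : 2 ≤ σ * n := by
    have : 2 / σ ≤ n := by linarith
    rw [div_le_iff₀ hσ] at this
    linarith
  have n2 : 2 ≤ ρ * n := by
    have : 2 / ρ ≤ n := by linarith
    rw [div_le_iff₀ hρ] at this
    linarith
  have n3 : 1 ≤ ε * n := by
    have : 1 / ε ≤ n := by linarith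
    rw [div_le_iff₀ hε0] at this
    linarith
  have n4 : 2 * (E : ℝ) ^ m * (E * K + ρp + 1) ≤ ρ * n := by
    have : 2 * (E : ℝ) ^ m * (E * K + ρp + 1) / ρ ≤ n := by linarith
    rw [div_le_iff₀ hρ] at this
    linarith
  have n5 : ρf ≤ n := by linarith
  have n6 : (1 : ℝ) ≤ n := by linarith
  -- the radii
  obtain ⟨L, hL⟩ : ∃ L, L = ⌊σ * n⌋₊ := ⟨_, rfl⟩
  obtain ⟨m₀, hm₀⟩ : ∃ m₀, m₀ = ⌊σ * n⌋ := ⟨_, rfl⟩
  obtain ⟨R1, hR1⟩ : ∃ R1, R1 = ⌊ρ * n⌋ := ⟨_, rfl⟩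
  obtain ⟨rZ, hrZ⟩ : ∃ rZ, rZ = ⌊ε * n⌋ := ⟨_, rfl⟩
  have l1 : σ * n - 1 < L := by
    have := Nat.lt_floor_add_one (σ * n)
    rw [← hL] at this
    linarith
  have l2 : σ * n - 1 < m₀ := by
    have := Int.lt_floor_add_one (σ * n)
    rw [← hm₀] at this
    linarith
  have l3 : ρ * n - 1 < R1 := by
    have := Int.lt_floor_add_one (ρ * n)
    rw [← hR1] at this
    linarith
  have l4 : (R1 : ℝ) ≤ ρ * n := by rw [hR1]; exact Int.floor_le _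
  have l5 : (rZ : ℝ) ≤ ε * n := by rw [hrZ]; exact Int.floor_le _
  have l6 : 1 ≤ rZ := by rw [hrZ, Int.le_floor]; exact_mod_cast n3
  have l7 : rZ ≤ R1 := by
    rw [hrZ, hR1]
    exact Int.floor_le_floor (mul_le_mul_of_nonneg_right hερ (by linarith))
  have l8 : 1 ≤ R1 := l6.trans l7
  have l9 : ρ * n ≤ σ / 100 * n := mul_le_mul_of_nonneg_right hρσ (by linarith)
  have l10 : ρ * n ≤ 1 / 100 * n := mul_le_mul_of_nonneg_right hρ1 (by linarith)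
  have m1 : 24 * R1 < n := by
    have : (24 : ℝ) * R1 < n := by linarith
    exact_mod_cast this
  have m2 : 16 * R1 < L := by
    have : (16 : ℝ) * R1 < L := by linarith
    exact_mod_cast this
  have m3 : 4 * R1 ≤ m₀ := by
    have : (4 : ℝ) * R1 ≤ m₀ := by linarith
    exact_mod_cast this
  have m4 : Kx * rZ ≤ R1 := by
    have b1 : Kx * (rZ : ℝ) ≤ Kx * (ρ / (4 * Kx) * n) :=
      mul_le_mul_of_nonneg_left (l5.trans (mul_le_mul_of_nonneg_right hεx (by linarith)))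
        (by linarith)
    have b2 : Kx * (ρ / (4 * Kx) * n) = ρ * n / 4 := by field_simp
    linarith
  have m5 : R1 ≤ ⌊min (σ / 100) (1 / 100) * (n : ℝ)⌋ := by
    rw [hR1]
    exact Int.floor_le_floor (mul_le_mul_of_nonneg_right hρ0 (by linarith))
  -- the small radius
  have r1 : (R1 : ℝ) / (E : ℝ) ^ m - 1 < rr R1 E m := by
    have b0 : (0 : ℤ) < (E : ℤ) ^ m := by positivity
    have b1 := Int.lt_ediv_add_one_mul_self R1 b0
    have b2 : (R1 : ℝ) < ((rr R1 E m : ℤ) + 1) * (E : ℝ) ^ m := by exact_mod_cast b1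
    rw [← div_lt_iff₀ hEm] at b2
    linarith
  have r2 : (E : ℝ) * K + ρp + 1 ≤ (R1 : ℝ) / (E : ℝ) ^ m := by
    rw [le_div_iff₀ hEm]
    linarith
  have r3 : (rr R1 E m : ℝ) ≤ ε * n := by
    have b0 : (0 : ℤ) < (E : ℤ) ^ m := by positivity
    have b1 : (rr R1 E m : ℝ) * (E : ℝ) ^ m ≤ R1 := by
      exact_mod_cast Int.ediv_mul_le R1 b0.ne'
    have b2 : ρ ≤ ε * (E : ℝ) ^ m := by
      rw [div_lt_iff₀ hε0] at hm
      linarith
    have b3 : (rr R1 E m : ℝ) * (E : ℝ) ^ m ≤ (ε * n) * (E : ℝ) ^ m := by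
      calc _ ≤ (R1 : ℝ) := b1
        _ ≤ ρ * n := l4
        _ ≤ ε * (E : ℝ) ^ m * n := mul_le_mul_of_nonneg_right b2 (by linarith)
        _ = _ := by ring
    exact le_of_mul_le_mul_right b3 hEm
  have r4 : rr R1 E m ≤ rZ := by
    rw [hrZ, Int.le_floor]
    exact r3
  have r5 : E * K ≤ rr R1 E m := by
    have : (E : ℝ) * K ≤ rr R1 E m := by linarith
    exact_mod_cast this
  have r6 : ρp ≤ rr R1 E m := by
    have : 0 < (E : ℝ) * K := by positivity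
    linarith
  -- the situation
  have hspe : ∀ j ∈ P ∪ Z, j < X.N ∧ Spe X.τ X.k j := by
    intro j hj
    rw [hU] at hj
    unfold Pg.sp at hj
    rw [mem_filter, mem_range] at hj
    exact hj
  have hsit : Sit n X.N L m₀ X.q X.D X.k X.τ X.η := by
    have hsep := hX.sep
    have hreg := hX.reg
    rw [← hL] at hsep
    rw [← hm₀] at hreg
    exact ⟨hX.geo, hX.poly, hX.enc, hsep, hreg.good, hreg.one⟩
  have hHy : Hy θ ms c0 n X L m₀ P Z rZ R1 := by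
    refine ⟨hsit, fun j _ => ?_, fun j hj hs => ?_, hspe, hPZ, ?_, m1, m2, m3, l7, l8, l6,
      fun j hj ω A hA hin => ?_, fun j hj ω r hr1 hr2 => ?_⟩
    · refine HX X.D X.η _ rZ R1 ?_ l6 m4
      refine hX.reg.bd _ (H718.q_mem_sites hX.poly hX.enc _) R1 l8 ?_
      rw [← hm₀]
      omega
    · have : j ∈ X.sp := by
        unfold Pg.sp
        rw [mem_filter, mem_range]
        exact ⟨hj, hs⟩
      rw [← hU] at this
      exact mem_union.1 this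
    · rw [hU, hms]
      exact card_sp hX hσ hRR n1
    · exact hcc.trans (hP j hj ω A hA fun e he => Bq_sub m5 (hin e he))
    · exact hZ j hj ω r hr1 (hr2.trans m5)
  have hcore := hHy.core h0 h1 hQ hc0 hc1 hs hs1 hE1 hK (m := m) (Y1 := Y1 ^ 4) (Y := Y)
    (Cp := Cp) (Cf := Cf) (e1p := e1p) (e1f := e1f) (κ := κ) (R' := R') (ρp := ρp) (ρf := ρf)
    (one_le_pow₀ hY1) hd hCp hCf @hmj @Hp @Hf he1p hEe r4 r5 r6 n5
    (by rw [hκ]; linarith) (hX.dia.imp fun x₀ hx v hv => (hx v hv).trans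
      (mul_le_mul_of_nonneg_right hRR (by linarith))) (by rw [hκ]; linarith)
    (l5.trans (mul_le_mul_of_nonneg_right hεf (by linarith))) hX0 (H := H) hH
    (fun ω a1 a2 A hA => hcc.trans (hHc ω a1 (by rw [← hrZ]; exact a2) A hA)) (c2 := c₂)
    (M0 := M0) hc₂.le (by
      have key := hHE (X.TZ θ P (rr R1 E m)) (fun ω => hHy.P0 hc0.le (r4.trans l7) ω)
        (fun ω ω' hh => Hy.TZ_loc X θ P (rr R1 E m) fun j hj v hv hvD => hh v (by
          rw [mem_inter, mem_biUnion]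
          exact ⟨hvD, j, hj, Bq_sub (by rw [← hrZ]; exact r4) hv⟩))
      rw [← hrZ] at key
      have e1 : (fun ω => X.TZ θ P (rr R1 E m) ω * X.TZ θ Z rZ ω) =
          fun ω => X.TZ θ Z rZ ω * X.TZ θ P (rr R1 E m) ω := funext fun ω => mul_comm _ _
      have e2 : (fun ω => X.TZ θ P (rr R1 E m) ω * X.TZ θ Z rZ ω * H ω) =
          fun ω => X.TZ θ Z rZ ω * X.TZ θ P (rr R1 E m) ω * H ω := funext fun ω => by
        rw [mul_comm (X.TZ θ P (rr R1 E m) ω)]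
      rw [e1, e2] at key
      exact key) hM0
  rw [hU] at hcore
  refine le_trans (le_of_eq ?_) hcore
  rw [hR1]
  ring

end Vale.Agent.P167.H562.LG
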