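import Vale.Agent.P167.H601.S2.Main

/-!
# P167, general `q`, block Q-LAM, lower bound: moments next to a fixed factor

`mom_J`: version of helper601's `mom_main` with a factor `J` which does not depend on the radius and
does not read the boxes of the points of `P`.
-/

namespace Vale.Agent.P167.H562.LG

open Finset
open Vale.Agent.P167.E6 (IsPolygon Encloses)
open Vale.Agent.P167.BR
open Vale.Agent.P167.FK (Bq Ex Good RSW cf)
open Vale.Agent.P167.FKA (Loc Ex_mono Ex_congr Ex_const Ex_mul_left Ex_nonneg)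
open Vale.Agent.P167.H562.QM (MajA OneC)
open Vale.Agent.P167.H601.LG
open Vale.Agent.P167.H601.S2

variable {θ : ℝ}

section scales

variable {n N L k : ℕ} {m₀ : ℤ} {q : ZMod N → ℤ × ℤ} {D : Finset (ℤ × ℤ)} {τ : ℕ → ℤ}
  {η : Cfg} {β c0 s : ℝ} {P : Finset ℕ} {J : Cfg → ℝ} {E : ℕ} {r K : ℤ} {j : ℕ}

/-- The product does not read the annuli of radius between `ε ρ` and `2 r`. -/
theorem JP_off (hJ : ∀ i ∈ P, Off D (fun v => nm (v - q (i : ZMod N)) ≤ 2 * r) J)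
    (hf : ∀ i ∈ P, ∀ j ∈ P, i ≠ j → 4 * r < nm (q (i : ZMod N) - q (j : ZMod N))) {a : ℕ}
    (ha : a ∈ P) {r' : ℤ} (h1 : 1 ≤ r') (hr : r' ≤ r) {x y : ℝ} (hx : (r' : ℝ) ≤ x)
    (hy : y ≤ 2 * r) :
    Off D (Rg (q (a : ZMod N)) x y) (fun ω => J ω * PT θ β q D k τ P r' ω) := by
  refine Off.mul ?_ ?_
  · intro ω ω' hh
    refine hJ a ha ω ω' fun v hv => hh v fun h => hv ⟨h.1, ?_⟩
    have h2 : (nm (v - q (a : ZMod N)) : ℝ) ≤ 2 * r := h.2.2.trans hy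
    show nm (v - q (a : ZMod N)) ≤ 2 * r
    exact_mod_cast h2
  · intro ω ω' hh
    unfold PT
    refine prod_congr rfl fun b hb => ?_
    refine H975.TX_loc _ _ _ _ ω ω' fun v hv => hh v ?_
    rintro ⟨-, hv1, hv2⟩
    have h5 := nm_of_Bq (mem_inter.1 hv).1
    by_cases hab : a = b
    · subst hab
      have h6 : (nm (v - q (a : ZMod N)) : ℝ) ≤ r' := by exact_mod_cast h5
      linarith
    · have h6 := hf a ha b hb hab
      have h7 := nm_tri' (q (a : ZMod N)) v (q (b : ZMod N))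
      have h8 := nm_comm (q (a : ZMod N)) v
      have h10 : (nm (v - q (a : ZMod N)) : ℝ) ≤ 2 * r := hv2.trans hy
      have h11 : nm (v - q (a : ZMod N)) ≤ 2 * r := by exact_mod_cast h10
      omega

/-- The moments at the scales `1, …, J - 1`. -/
theorem mom_midJ {Q ε C : ℝ} {ms : ℕ} (hQ : 0 < Q) (hε : 0 < ε) (hE : 1 ≤ E) (hεE : 1 ≤ ε * E)
    (hC : 0 < C) (hJ : ∀ i ∈ P, Off D (fun v => nm (v - q (i : ZMod N)) ≤ 2 * r) J)
    (hf : ∀ i ∈ P, ∀ j ∈ P, i ≠ j → 4 * r < nm (q (i : ZMod N) - q (j : ZMod N)))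
    (hPc : P.card ≤ ms) (hT0 : ∀ ω, 0 ≤ J ω * PT θ β q D k τ P (rr r E (j + 2)) ω)
    {Nf : ℕ → Cfg → ℕ} (hr0 : 0 ≤ r) (h1 : 1 ≤ rr r E (j + 2))
    (hN : ∀ i ∈ P, Mid Q ε C s q D η i (rr r E (j + 1)) (rr r E j) (Nf i)) :
    Ex Q D η (fun ω => J ω * PT θ β q D k τ P (rr r E (j + 2)) ω *
      Real.exp (s * ((∑ i ∈ P, Nf i ω : ℕ) : ℝ))) ≤
        max 1 C ^ ms * Ex Q D η (fun ω => J ω * PT θ β q D k τ P (rr r E (j + 2)) ω) := by
  have hρr : ∀ j, rr r E j ≤ r := fun j => by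
    have := rr_anti hr0 E (Nat.zero_le j)
    rwa [rr_zero] at this
  have hdn := rr_down (r := r) hE (j + 1)
  have hdn' : (rr r E (j + 2) : ℝ) ≤ ε * rr r E (j + 1) := by
    have h3 : ((E : ℤ) : ℝ) * (rr r E (j + 2) : ℝ) ≤ (rr r E (j + 1) : ℝ) := by
      exact_mod_cast hdn
    have h4 : (0 : ℝ) ≤ rr r E (j + 2) := by exact_mod_cast rr_nonneg hr0 E _
    push_cast at h3
    calc (rr r E (j + 2) : ℝ) = 1 * (rr r E (j + 2) : ℝ) := (one_mul _).symm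
      _ ≤ (ε * E) * (rr r E (j + 2) : ℝ) := mul_le_mul_of_nonneg_right hεE h4
      _ = ε * (E * (rr r E (j + 2) : ℝ)) := by ring
      _ ≤ ε * rr r E (j + 1) := mul_le_mul_of_nonneg_left h3 hε.le
  have hρi : (1 / 16 * (rr r E (j + 1) : ℝ) + (rr r E j : ℝ)) ≤ 2 * r := by
    have h3 : (rr r E (j + 1) : ℝ) ≤ r := by exact_mod_cast hρr (j + 1)
    have h4 : (rr r E j : ℝ) ≤ r := by exact_mod_cast hρr j
    have h5 : (0 : ℝ) ≤ r := by exact_mod_cast hr0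
    linarith
  have h3 := mom_prod (Q := Q) (D := D) (η := η) P Nf
    (T := fun ω => J ω * PT θ β q D k τ P (rr r E (j + 2)) ω) hT0
    (R := fun a => Rg (q (a : ZMod N)) (ε * rr r E (j + 1))
      (1 / 16 * rr r E (j + 1) + rr r E j)) (C := C) (s := s) hC.le
    (fun a ha => JP_off hJ hf ha h1 (hρr _) hdn' hρi)
    (fun a ha => (hN a ha).1)
    (fun a ha b hb hab v hv hv' => by
      have h6 := hf a ha b hb hab
      have h7 := nm_tri' (q (a : ZMod N)) v (q (b : ZMod N))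
      have h8 := nm_comm (q (a : ZMod N)) v
      have h10 : (nm (v - q (a : ZMod N)) : ℝ) ≤ 2 * r := hv.2.trans hρi
      have h11 : nm (v - q (a : ZMod N)) ≤ 2 * r := by exact_mod_cast h10
      have h12 : (nm (v - q (b : ZMod N)) : ℝ) ≤ 2 * r := hv'.2.trans hρi
      have h13 : nm (v - q (b : ZMod N)) ≤ 2 * r := by exact_mod_cast h12
      omega)
    (fun a ha => (hN a ha).2)
  refine h3.trans (mul_le_mul_of_nonneg_right ?_ (Ex_nonneg hQ fun _ _ => hT0 _))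
  exact (pow_le_pow_left₀ hC.le (le_max_right _ _) _).trans
    (pow_le_pow_right₀ (le_max_left _ _) hPc)

/-- Two consecutive scales, from above. -/
theorem JP_up (h0 : 0 < θ) (h1 : θ ≤ Real.pi / 3) (hS : Sit n N L m₀ q D k τ η)
    (hs0 : 1 / Real.sin θ + 1 / Real.sin (2 * θ) ≤ Real.exp (s / 2)) (hc0 : 0 < c0)
    (hP : ∀ j ∈ P, j < N ∧ Spe τ k j) (hJ0 : ∀ ω, 0 ≤ J ω)
    {r1 r2 : ℤ} (h21 : r2 ≤ r1) (hr1 : r1 ≤ r) (hr : 6 * r < n) (hrL : 4 * r < L)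
    (hw : Wl θ β q D k τ P c0 r) (ω : Cfg) {Nf : ℕ → ℕ}
    (hM : ∀ j ∈ P, MajA (Bq (q (j : ZMod N)) r1) ((r2 : ℝ) / 16) ω (Nf j)) :
    J ω * PT θ β q D k τ P r1 ω ≤ Real.exp (s / 2 * ((∑ j ∈ P, Nf j : ℕ) : ℝ)) *
      (J ω * PT θ β q D k τ P r2 ω) := by
  have h3 := PT_up h0 h1 hS hs0 hc0 hP h21 (by omega) (by omega) (hw.mono hr1) ω hM
  have h4 := mul_le_mul_of_nonneg_left h3 (hJ0 ω)
  calc _ ≤ _ := h4
    _ = _ := by ring

/-- Two consecutive scales, from below. -/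
theorem JP_low (h0 : 0 < θ) (h1 : θ ≤ Real.pi / 3) (hS : Sit n N L m₀ q D k τ η)
    (hc0 : 0 < c0) (hc1 : c0 ≤ 1) (hs1 : Real.exp (-(s / 4)) ≤ c0)
    (hP : ∀ j ∈ P, j < N ∧ Spe τ k j) {Q : ℝ} (hQ : 0 < Q) (hJ0 : ∀ ω, 0 ≤ J ω)
    {r1 r2 : ℤ} (h21 : r2 ≤ r1) (hr1 : r1 ≤ r) (hr : 6 * r < n) (hrL : 4 * r < L)
    (hw : Wl θ β q D k τ P c0 r) {Nf : ℕ → Cfg → ℕ}
    (hM : ∀ j ∈ P, ∀ ω, MajA (Bq (q (j : ZMod N)) r1) ((r2 : ℝ) / 16) ω (Nf j ω)) :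
    Ex Q D η (fun ω => J ω * PT θ β q D k τ P r2 ω *
      Real.exp (-(s / 4 * ((∑ j ∈ P, Nf j ω : ℕ) : ℝ)))) ≤
        1 * Ex Q D η (fun ω => J ω * PT θ β q D k τ P r1 ω) := by
  rw [one_mul]
  refine Ex_mono hQ fun S _ => ?_
  have h4 := PT_low h0 h1 hS hc0 hc1 hs1 hP h21 (by omega) (by omega) (hw.mono hr1) (cf D η S)
    (fun j hj => hM j hj (cf D η S))
  have h5 := mul_le_mul_of_nonneg_left h4 (hJ0 (cf D η S))
  calc _ = _ := by ring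
    _ ≤ _ := h5

end scales

/-- **Moments and radii next to a fixed factor.** -/
theorem mom_J (h0 : 0 < θ) (h1 : θ ≤ Real.pi / 3) (hR : RSW (2 * Real.cos θ)) (ms : ℕ)
    {c0 : ℝ} (hc0 : 0 < c0) (hc1 : c0 ≤ 1) {s : ℝ} (hs : 0 < s)
    (hs0 : 1 / Real.sin θ + 1 / Real.sin (2 * θ) ≤ Real.exp (s / 2))
    (hs1 : Real.exp (-(s / 4)) ≤ c0) (E0 : ℕ) :
    ∃ E : ℕ, E0 ≤ E ∧ 2 ≤ E ∧ ∃ K : ℤ, 1 ≤ K ∧
    ∀ M : ℝ, 0 ≤ M → ∃ Y : ℝ, 1 ≤ Y ∧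
    ∀ {n N L k : ℕ} {m₀ : ℤ} {q : ZMod N → ℤ × ℤ} {D : Finset (ℤ × ℤ)} {τ : ℕ → ℤ} {η : Cfg}
      {β : ℝ}, Sit n N L m₀ q D k τ η → ∀ P : Finset ℕ, (∀ j ∈ P, j < N ∧ Spe τ k j) →
      P.card ≤ ms → ∀ r : ℤ, E * K ≤ r → 24 * r < n → 16 * r < L → 4 * r ≤ m₀ →
      Wl θ β q D k τ P c0 r → ∀ J : Cfg → ℝ, (∀ ω, 0 ≤ J ω) →
      (∀ i ∈ P, Off D (fun v => nm (v - q (i : ZMod N)) ≤ 2 * r) J) →
      ∀ N0 : Cfg → ℝ, (∀ ω, 0 ≤ N0 ω) →
      Ex (2 * Real.cos θ) D η (fun ω => J ω * PT θ β q D k τ P (r / E) ω *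
        Real.exp (2 * s * N0 ω)) ≤
        M * Ex (2 * Real.cos θ) D η (fun ω => J ω * PT θ β q D k τ P (r / E) ω) →
      Ex (2 * Real.cos θ) D η (fun ω => J ω * PT θ β q D k τ P r ω * Real.exp (s * N0 ω)) ≤
        Y ^ 4 * Ex (2 * Real.cos θ) D η (fun ω => J ω * PT θ β q D k τ P r ω) ∧
      Ex (2 * Real.cos θ) D η (fun ω => J ω * PT θ β q D k τ P r ω) ≤
        Y ^ 4 * Ex (2 * Real.cos θ) D η (fun ω => J ω * PT θ β q D k τ P (r / E) ω) := by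
  have hcos : 1 / 2 ≤ Real.cos θ := by
    rw [← Real.cos_pi_div_three]
    exact Real.cos_le_cos_of_nonneg_of_le_pi h0.le (by linarith [Real.pi_pos]) h1
  have hQ : 1 ≤ 2 * Real.cos θ := by linarith
  obtain ⟨Q, hQd⟩ : ∃ Q : ℝ, Q = 2 * Real.cos θ := ⟨_, rfl⟩
  rw [← hQd] at hQ hR ⊢
  have hQ0 : 0 < Q := by linarith
  obtain ⟨ε, E, C, ρ0, hε, hE0, hE2, hεE, hC, hρ0, hCn⟩ := exists_cn hQ hR (2 * s) E0
  have hE1 : 1 ≤ E := by omega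
  obtain ⟨K, hK⟩ : ∃ K : ℤ, K = max 1 ⌈ρ0⌉ := ⟨_, rfl⟩
  have hK1 : 1 ≤ K := by rw [hK]; exact le_max_left _ _
  have hKρ : ρ0 ≤ K := by
    have : (⌈ρ0⌉ : ℝ) ≤ K := by
      exact_mod_cast (by rw [hK]; exact le_max_right _ _)
    exact (Int.le_ceil ρ0).trans this
  obtain ⟨Z0, hZ0⟩ : ∃ Z0 : ℕ, Z0 = 4 * (2 * (2 * E * (E * K) : ℤ).toNat) ^ 2 := ⟨_, rfl⟩
  refine ⟨E, hE0, hE2, K, hK1, fun M hM => ?_⟩
  have hM'0 : 0 ≤ M + max 1 C ^ ms := by positivity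
  obtain ⟨Y, hY1, hYM, hYb⟩ := exists_Y le_rfl hM'0
    (Real.one_le_exp (by positivity : 0 ≤ s * ((ms * Z0 : ℕ) : ℝ)))
  refine ⟨Y, hY1, ?_⟩
  intro n N L k m₀ q D τ η β hS P hP hPc r hrK hrn hrL hrm hw I hI0 hI N0 hN0 hM0
  have hr0 : 0 ≤ r := le_trans (by positivity) hrK
  obtain ⟨J, hJ1, hJK, hJE⟩ := exists_last hE2 hK1 hrK
  have hρr : ∀ j, rr r E j ≤ r := fun j => by
    have := rr_anti hr0 E (Nat.zero_le j)
    rwa [rr_zero] at this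
  have hρ1 : ∀ j ≤ J, 1 ≤ rr r E j := fun j hj => (hK1.trans hJK).trans (rr_anti hr0 E hj)
  have hfar : ∀ i ∈ P, ∀ j ∈ P, i ≠ j → 4 * r < nm (q (i : ZMod N) - q (j : ZMod N)) :=
    fun i hi j hj hne => spe_far hS.geo hS.sep (hP i hi).1 (hP j hj).1 hne (hP i hi).2
      (hP j hj).2 (by omega) (by omega)
  obtain ⟨Nf, hN1, hN2, hN3⟩ := nums hCn hE1 hS hr0 hrm hK1 hKρ hJK hJE hZ0
  -- the numbers
  obtain ⟨Nn, hNn⟩ : ∃ Nn : ℕ → Cfg → ℝ, Nn = fun j ω => if j = 0 then N0 ω else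
      ((∑ i ∈ P, Nf i j ω : ℕ) : ℝ) := ⟨_, rfl⟩
  have hNn0 : ∀ ω, Nn 0 ω = N0 ω := fun ω => by rw [hNn]; exact if_pos rfl
  have hNns : ∀ j ω, Nn (j + 1) ω = ((∑ i ∈ P, Nf i (j + 1) ω : ℕ) : ℝ) := fun j ω => by
    rw [hNn]; exact if_neg (Nat.succ_ne_zero j)
  have hT0 : ∀ j ω, 0 ≤ I ω * PT θ β q D k τ P (rr r E j) ω := fun j ω =>
    mul_nonneg (hI0 _) ((hw.mono (hρr j)).pnonneg hc0.le ω)
  have hup : ∀ j < J, ∀ ω, I ω * PT θ β q D k τ P (rr r E j) ω ≤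
      Real.exp (s / 2 * Nn (j + 1) ω) * (I ω * PT θ β q D k τ P (rr r E (j + 1)) ω) := by
    intro j hj ω
    rw [hNns]
    exact JP_up h0 h1 hS hs0 hc0 hP hI0 (rr_le hr0 E j) (hρr j) (by omega) (by omega)
      hw ω fun i _ => hN1 i j hj ω
  have hlow : ∀ j < J, Ex Q D η (fun ω => I ω * PT θ β q D k τ P (rr r E (j + 1)) ω *
      Real.exp (-(s / 4 * Nn (j + 1) ω))) ≤
        1 * Ex Q D η (fun ω => I ω * PT θ β q D k τ P (rr r E j) ω) := by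
    intro j hj
    simp only [hNns]
    exact JP_low h0 h1 hS hc0 hc1 hs1 hP hQ0 hI0 (rr_le hr0 E j) (hρr j) (by omega) (by omega)
      hw fun i _ => hN1 i j hj
  have e1 : rr r E 1 = r / E := by rw [show (1 : ℕ) = 0 + 1 by rfl, rr_succ, rr_zero]
  have e0 : rr r E 0 = r := rr_zero r E
  have hmom : ∀ j < J, Ex Q D η (fun ω => I ω * PT θ β q D k τ P (rr r E (j + 1)) ω *
      Real.exp (2 * s * Nn j ω)) ≤ (M + max 1 C ^ ms) *
        Ex Q D η (fun ω => I ω * PT θ β q D k τ P (rr r E (j + 1)) ω) := by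
    intro j hj
    have hpos : 0 ≤ Ex Q D η (fun ω => I ω * PT θ β q D k τ P (rr r E (j + 1)) ω) :=
      Ex_nonneg hQ0 fun _ _ => hT0 _ _
    rcases j with _ | j
    · rw [zero_add, e1] at hpos ⊢
      simp only [hNn0]
      refine hM0.trans (mul_le_mul_of_nonneg_right ?_ hpos)
      have : 0 ≤ max 1 C ^ ms := by positivity
      linarith
    · simp only [hNns]
      refine (mom_midJ hQ0 hε hE1 hεE hC hI hfar hPc (hT0 _) hr0 (hρ1 _ hj)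
        (Nf := fun i => Nf i (j + 1)) fun i _ => hN2 i j hj).trans ?_
      refine mul_le_mul_of_nonneg_right ?_ hpos
      linarith
  have hbase : Ex Q D η (fun ω => I ω * PT θ β q D k τ P (rr r E J) ω *
      Real.exp (s * Nn J ω)) ≤
      Y ^ 4 * Ex Q D η (fun ω => I ω * PT θ β q D k τ P (rr r E J) ω) := by
    rw [← Ex_mul_left]
    refine Ex_mono hQ0 fun S _ => ?_
    rw [mul_comm]
    refine mul_le_mul_of_nonneg_right (le_trans (Real.exp_le_exp.2 ?_) hYb) (hT0 _ _)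
    refine mul_le_mul_of_nonneg_left ?_ hs.le
    obtain ⟨i, rfl⟩ := Nat.exists_eq_succ_of_ne_zero (by omega : J ≠ 0)
    rw [hNns]
    have h3 : ∑ a ∈ P, Nf a (i + 1) (cf D η S) ≤ ms * Z0 := by
      calc ∑ a ∈ P, Nf a (i + 1) (cf D η S) ≤ ∑ _a ∈ P, Z0 :=
            sum_le_sum fun a _ => hN3 a _
        _ = P.card * Z0 := by rw [sum_const, smul_eq_mul]
        _ ≤ ms * Z0 := Nat.mul_le_mul_right _ hPc
    exact_mod_cast h3
  have hmain := radii (Q := Q) (D := D) (η := η) hQ0 J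
    (T := fun j ω => I ω * PT θ β q D k τ P (rr r E j) ω) (N := Nn) (s := s)
    (M := M + max 1 C ^ ms) (C1 := 1) (Y := Y) hT0 le_rfl hY1 hM'0 hYM hup hlow hmom hbase
  have m0 := (hmain 0 (Nat.zero_le _)).1
  have m1 := (hmain 1 hJ1).1
  simp only [e0, e1, hNn0] at m0 m1
  refine ⟨m0, ?_⟩
  have h3 := hup 0 (by omega)
  rw [zero_add, e1, e0] at h3
  refine le_trans (Ex_mono hQ0 fun S _ => (h3 (cf D η S)).trans ?_) m1
  rw [mul_comm]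
  refine mul_le_mul_of_nonneg_left (Real.exp_le_exp.2 ?_) (by
    have := hT0 1 (cf D η S)
    rwa [e1] at this)
  have h4 : 0 ≤ Nn 1 (cf D η S) := by
    rw [show (1 : ℕ) = 0 + 1 by rfl, hNns]
    positivity
  have h5 := mul_nonneg hs.le h4
  linarith

end Vale.Agent.P167.H562.LG
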