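import Vale.Agent.P167.H562.LG.Law

/-!
# P167, general `q`, block Q-LAM, lower bound: the numbers of the large pieces
-/

namespace Vale.Agent.P167.H562.LG

open Finset
open Vale.Agent.P167.E6 (IsPolygon Encloses)
open Vale.Agent.P167.BR
open Vale.Agent.P167.FK (Bq Ex Good RSW cf)
open Vale.Agent.P167.FKA (Loc Ex_mono Ex_congr Ex_const Ex_mul_left Ex_nonneg Ex_sub)
open Vale.Agent.P167.H166 (bxx mem_bxx)
open Vale.Agent.P167.H562.QM (MajA OneC Nr)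
open Vale.Agent.P167.H601.LG
open Vale.Agent.P167.H601.S2
open Vale.Agent.P167.H398.Q (macro_F)

variable {Q : ℝ}

/-- **The macroscopic pieces.** -/
theorem exists_far (hQ : 1 ≤ Q) (hR : RSW Q) (ms : ℕ) : ∃ e1 : ℝ, 0 < e1 ∧
    ∀ κ R s : ℝ, 0 < κ → 0 ≤ R → ∃ C ρ0 : ℝ, 0 < C ∧ 0 < ρ0 ∧
    ∀ {n N L k : ℕ} {m₀ : ℤ} {q : ZMod N → ℤ × ℤ} {D : Finset (ℤ × ℤ)} {τ : ℕ → ℤ} {η : Cfg},
      Sit n N L m₀ q D k τ η → ρ0 ≤ n → κ * n ≤ m₀ →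
      (∃ x₀ : ℤ × ℤ, ∀ v ∈ D, (nm (v - x₀) : ℝ) ≤ R * n) → ∀ S : Finset ℕ, S.card ≤ ms →
      ∃ N0 : Cfg → ℕ, (∀ ω, MajA D (κ * n) ω (N0 ω)) ∧ ∀ T : Cfg → ℝ, (∀ ω, 0 ≤ T ω) →
        (∀ ω ω' : Cfg, (∀ v : ℤ × ℤ, (∃ j ∈ S, (nm (v - q ((j : ℕ) : ZMod N)) : ℝ) ≤
          e1 * κ / (1 + |s|) * n) → ω v = ω' v) → T ω = T ω') →
        Ex Q D η (fun ω => T ω * Real.exp (s * (N0 ω : ℝ))) ≤ C * Ex Q D η T := by
  obtain ⟨e1, he1, H⟩ := macro_F hQ hR ms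
  refine ⟨e1, he1, fun κ R s hκ hR0 => ?_⟩
  obtain ⟨C, ρ0, hC, hρ0, H⟩ := H κ R s hκ hR0
  refine ⟨C, ρ0, hC, hρ0, ?_⟩
  intro n N L k m₀ q D τ η hS hn hm ⟨x₀, hx₀⟩ S hSc
  obtain ⟨x, hx⟩ := exists_enum hSc fun j => q ((j : ℕ) : ZMod N)
  obtain ⟨N0, -, h2, h3⟩ := H (n : ℝ) hn x₀ D hx₀ x
  refine ⟨N0, h2, fun T hT0 hT => ?_⟩
  refine h3 D η hS.good (fun y a ha ha' hy => ?_) T hT0 fun ω ω' hh => ?_
  · have h5 : y ∈ bxx y a := by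
      rw [mem_bxx, sub_self]
      show max |(0 : ℤ)| |(0 : ℤ)| ≤ a
      simp
      omega
    obtain ⟨u, hu, hyu⟩ := (hy y h5).1
    have hκn : 0 ≤ κ * (n : ℝ) := by positivity
    refine hS.one y a ha ?_ ⟨u, hu, ?_⟩
    · have : (a : ℝ) ≤ m₀ := by linarith
      exact_mod_cast this
    · have : (nm (y - u) : ℝ) ≤ m₀ := by linarith
      exact_mod_cast this
  · refine hT ω ω' fun v hv => hh v ?_
    rintro ⟨-, -, h6⟩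
    obtain ⟨j, hj, hjv⟩ := hv
    obtain ⟨i, hi⟩ := hx j hj
    have := h6 i
    rw [hi] at this
    linarith

/-- **The pieces near the points of `P`.** -/
theorem exists_nearn (hQ : 1 ≤ Q) (hR : RSW Q) : ∃ e1 : ℝ, 0 < e1 ∧
    ∀ Rr s : ℝ, 0 ≤ Rr → ∃ C ρ0 : ℝ, 0 < C ∧ 0 < ρ0 ∧
    ∀ {n N L k : ℕ} {m₀ : ℤ} {q : ZMod N → ℤ × ℤ} {D : Finset (ℤ × ℤ)} {τ : ℕ → ℤ} {η : Cfg},
      Sit n N L m₀ q D k τ η → ∀ (P : Finset ℕ) (r3 R1 : ℤ), ρ0 ≤ r3 → 1 ≤ r3 → r3 ≤ R1 →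
      (R1 : ℝ) ≤ Rr * r3 → 2 * R1 + 1 ≤ m₀ →
      (∀ i ∈ P, ∀ j ∈ P, i ≠ j → 4 * R1 < nm (q ((i : ℕ) : ZMod N) - q ((j : ℕ) : ZMod N))) →
      ∃ Nf : ℕ → Cfg → ℕ,
        (∀ (j : ℕ) (ω : Cfg), MajA (Bq (q (j : ZMod N)) R1) ((r3 : ℝ) / 16) ω (Nf j ω)) ∧
        ∀ T : Cfg → ℝ, (∀ ω, 0 ≤ T ω) →
        (∀ a ∈ P, Off D (Rg (q ((a : ℕ) : ZMod N)) (e1 * (1 / 16) / (1 + |s|) * r3) (2 * R1)) T) →
        Ex Q D η (fun ω => T ω * Real.exp (s * ((∑ j ∈ P, Nf j ω : ℕ) : ℝ))) ≤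
          C ^ P.card * Ex Q D η T := by
  obtain ⟨e1, he1, H⟩ := num_pt hQ hR
  refine ⟨e1, he1, fun Rr s hRr => ?_⟩
  obtain ⟨C, ρ0, hC, hρ0, H⟩ := H (1 / 16) Rr s (by norm_num) hRr
  refine ⟨C, ρ0, hC, hρ0, ?_⟩
  intro n N L k m₀ q D τ η hS P r3 R1 h30 h31 h3R hRr1 hm hf
  have h31' : (1 : ℝ) ≤ r3 := by exact_mod_cast h31
  have h3R' : (r3 : ℝ) ≤ R1 := by exact_mod_cast h3R
  choose Nf n1 n2 n3 using fun j : ℕ => H (r3 : ℝ) h30 (q (j : ZMod N)) R1 hRr1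
  have hsub : ∀ (a : ℕ) (v : ℤ × ℤ), Rg (q (a : ZMod N)) (e1 * (1 / 16) / (1 + |s|) * r3)
      (1 / 16 * (r3 : ℝ) + R1) v → Rg (q (a : ZMod N)) (e1 * (1 / 16) / (1 + |s|) * r3)
      (2 * R1) v := fun a v hv => ⟨hv.1, by linarith [hv.2]⟩
  refine ⟨Nf, fun j ω => ?_, fun T hT0 hT => ?_⟩
  · have := n2 j ω
    rwa [one_div, inv_mul_eq_div] at this
  · refine mom_prod P Nf hT0 (R := fun a => Rg (q (a : ZMod N)) (e1 * (1 / 16) / (1 + |s|) * r3)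
      (1 / 16 * (r3 : ℝ) + R1)) hC.le (fun a ha ω ω' hh => ?_) (fun a ha => n1 a)
      (fun a ha b hb hab v hv hv' => ?_) fun a ha G hG0 hG => ?_
    · exact hT a ha ω ω' fun v hv => hh v fun h => hv ⟨h.1, hsub a v h.2⟩
    · have h6 := hf a ha b hb hab
      have h7 := nm_tri' (q (a : ZMod N)) v (q (b : ZMod N))
      have h8 := nm_comm (q (a : ZMod N)) v
      have h10 : (nm (v - q (a : ZMod N)) : ℝ) ≤ 2 * R1 := (hsub a v hv).2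
      have h11 : nm (v - q (a : ZMod N)) ≤ 2 * R1 := by exact_mod_cast h10
      have h12 : (nm (v - q (b : ZMod N)) : ℝ) ≤ 2 * R1 := (hsub b v hv').2
      have h13 : nm (v - q (b : ZMod N)) ≤ 2 * R1 := by exact_mod_cast h12
      omega
    · refine n3 a D η hS.good (fun y b hb hb' hy => ?_) G hG0 hG
      have h7 : (nm (y - q (a : ZMod N)) : ℝ) ≤ 2 * R1 := by linarith
      have h7' : nm (y - q (a : ZMod N)) ≤ 2 * R1 := by exact_mod_cast h7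
      have h6 : (b : ℝ) ≤ R1 := by linarith
      have h6' : b ≤ R1 := by exact_mod_cast h6
      refine hS.one y b hb (by omega) ?_
      obtain ⟨v, hv, hv'⟩ := exists_near hS.poly hS.enc (a : ZMod N)
      refine ⟨v, hv, ?_⟩
      have h8 := nm_tri' y (q (a : ZMod N)) v
      omega

end Vale.Agent.P167.H562.LG
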