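import Vale.Agent.P167.H562.LG.Main

/-!
# P167, general `q`, block Q-LAM: the lower bound if all the weights are positive

`l_pos`: `L_pos θ` from `RSW` and `SRSW`.
-/

namespace Vale.Agent.P167.H562.LG

open Finset
open Vale.Agent.P167.E6 (IsPolygon Encloses)
open Vale.Agent.P167.BR
open Vale.Agent.P167.FK (Bq Ex Good RSW cf)
open Vale.Agent.P167.H365.NQ (XW)
open Vale.Agent.P167.H192.Q (SRSW)
open Vale.Agent.P167.H601.LG
open Vale.Agent.P167.QX (lo hi)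
open Vale.Agent.P167.H718.Lam (Pg L_gen L_pos)

/-- **[L-POS]** -/
theorem l_pos {θ : ℝ} (h0 : 0 < θ) (h1 : θ ≤ Real.pi / 3) (hR : RSW (2 * Real.cos θ))
    (hSR : SRSW (2 * Real.cos θ)) : L_pos θ := by
  classical
  obtain ⟨c₁, hc₁, hc1, hlow⟩ := exists_low_wJ h0 h1
  have hcos : 0 < Real.cos θ := Real.cos_pos_of_mem_Ioo ⟨by linarith [Real.pi_pos], by
    linarith [Real.pi_pos]⟩
  intro σ R hσ
  obtain ⟨ρ₀, hρ₀, -, -, H⟩ := l_gen h0 h1 hR hSR σ R c₁ hσ hc₁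
  refine ⟨ρ₀, hρ₀, fun ρ hρ hρ0 => ?_⟩
  obtain ⟨ε, hε, -, H⟩ := H ρ hρ hρ0
  obtain ⟨c, n₀, hc, H⟩ := H 1 one_pos
  refine ⟨c, n₀, hc, fun n hn X hX _ hk hτ => ?_⟩
  have hw : ∀ ω, ∀ A ∈ pcs ω X.D, c₁ ≤ X.w θ A := by
    intro ω A hA
    by_cases hl : IsLp X.D A
    · have h3 : X.w θ A = 1 := wJ_lp hX.poly hX.enc hA hl hcos.ne'
      rw [h3]
      exact hc1
    · have hf := feet hX.poly hX.enc hA hl
      have h3 := hτ (lo X.q A) (hi X.q A) hf.1.le hf.2.1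
      refine hlow hX.poly hX.enc hA ?_ h3.1 h3.2
      rintro ⟨a1, a2⟩
      rcases hk with h4 | h4
      · omega
      · have := hf.2.1
        omega
  have hTZ : ∀ ω, X.TZ θ ∅ ⌊ε * n⌋ ω = 1 := fun ω => by
    unfold Pg.TZ
    exact prod_empty
  refine H n hn X hX X.sp ∅ (disjoint_empty_right _) (union_empty _)
    (fun j _ ω A hA _ => hw ω A hA) (fun j hj => absurd hj (notMem_empty j))
    (fun ω => prod_nonneg fun A hA => hc₁.le.trans (hw ω A hA)) (fun _ => 1)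
    (fun _ => ⟨zero_le_one, le_rfl⟩) (fun ω _ _ A hA => hw ω A hA) fun F hF _ => ?_
  simp only [hTZ, mul_one, one_mul]
  exact le_rfl

end Vale.Agent.P167.H562.LG
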